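import Vale.Agent.H91.CT.BoxStruct
import Vale.Agent.H14.CT.BoxDefs

/-!
P328: the line structure of box-slice classes, restated for the definitions of
`Vale.Agent.H14.CT` (which have the same bodies as those of `Vale.Agent.H91.CT`).
-/

namespace Vale.Agent.H14.CT

open Finset Vale.Agent.H90

variable {n : ℕ} {s : Fin n → ℕ} {ρ : ℕ}

theorem lineRel_equiv (a b : Fin n) : Equivalence (LineRel (s := s) (ρ := ρ) a b) :=
  Vale.Agent.H91.BoxTwin.lineRel_equiv a b

theorem lineRel_sum (a b : Fin n) (hab : a ≠ b) (z z' : Box n s ρ) (h : LineRel a b z z') :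
    z.1 a + z.1 b = z'.1 a + z'.1 b :=
  Vale.Agent.H91.BoxTwin.lineRel_sum a b hab z z' h

theorem depthB_const (a b : Fin n) (hab : a ≠ b) (z z' : Box n s ρ) (h : LineRel a b z z') :
    depthB a b z = depthB a b z' :=
  Vale.Agent.H91.BoxTwin.depthB_const a b hab z z' h

theorem eq_of_lineRel (a b : Fin n) (hab : a ≠ b) (z z' : Box n s ρ) (h : LineRel a b z z')
    (ha : z.1 a = z'.1 a) : z = z' :=
  Vale.Agent.H91.BoxTwin.eq_of_lineRel a b hab z z' h ha

/-- On a line of depth `D` the level runs through `0, …, D` exactly once. -/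
theorem box_class_level (a b : Fin n) (hab : a ≠ b) (z : Box n s ρ) (G : ℕ → ℝ) :
    ∑ z' ∈ univ.filter (fun z' => LineRel a b z z'), G (levelB a b z')
      = ∑ t ∈ range (depthB a b z + 1), G t :=
  Vale.Agent.H91.BoxTwin.box_class_level a b hab z G

/-- The number of points of a line is its depth plus one. -/
theorem box_class_card (a b : Fin n) (hab : a ≠ b) (z : Box n s ρ) :
    ((univ.filter (fun z' => LineRel a b z z')).card : ℝ) = (depthB a b z : ℝ) + 1 :=
  Vale.Agent.H91.BoxTwin.box_class_card a b hab z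

theorem levelB_le_depthB (a b : Fin n) (hab : a ≠ b) (z : Box n s ρ) :
    levelB a b z ≤ depthB a b z :=
  Vale.Agent.H91.BoxTwin.levelB_le_depthB a b hab z

end Vale.Agent.H14.CT
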