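import Vale.Agent.H91.CT.GenDefs
import Vale.Agent.H91.CT.FinalAC
import Vale.Agent.H88.CT.General

/-!
P328: the chain `SurHypG → LiftHyp2G → LiftHypG → LiftHypColG → ACHypG → gap` with general
constants (generalisation of Sur2, Lift2, LiftCol, LiftAC, AC and Final; the proofs are the same
with the constant `2` replaced by the surplus).
-/

namespace Vale.Agent.H91.CT

open Finset Vale.Agent.H90 Vale.Agent.H88.CT

theorem liftHyp2G_of_surHypG (θ κ : ℕ → ℝ) (h : SurHypG θ κ) (hθ : ∀ n, θ n ≤ 1) :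
    LiftHyp2G (fun n => κ n + 2 * (1 - θ n)) := by
  intro n r c f hf
  have key : ∀ a b : Fin n, a ≠ b → ∃ w : Omega r c → ℝ,
      (∀ t : ℕ, ∑ X ∈ univ.filter (fun X : Omega r c => min (X.1 0 a) (X.1 1 b) = t),
        w X = 0) ∧
      avgRel (BlockRel 0 1 a b) w = avgRel (BlockRel 0 1 a b) f ∧
      ∑ X, w X ^ 2 = ∑ X, avgRel (BlockRel 0 1 a b) f X ^ 2
        + ∑ d ∈ Finset.Icc 1 (min (c a) (c b)),
          (∑ X ∈ univ.filter (fun X : Omega r c => d ≤ depth2 a b X), f X) ^ 2 /
            ((d : ℝ) * (d + 1) *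
              ((univ.filter (fun X : Omega r c => min (X.1 0 a) (X.1 1 b) = d)).card : ℝ)) := by
    intro a b hab
    exact Sur2Aux.exists_lift (BlockRel 0 1 a b)
      (fun X : Omega r c => min (X.1 0 a) (X.1 1 b)) (depth2 a b)
      (blockRel_equiv 0 1 a b) (fun X Y hXY => depth2_eq a b hab X Y hXY)
      (class_level a b hab) (min (c a) (c b)) (fun X => Nat.min_le_right _ _) f hf
  choose! w hw using key
  refine ⟨w, fun a b hab => ⟨(hw a b hab).1, (hw a b hab).2.1⟩, ?_⟩
  have hS := h n r c f hf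
  have hpy : ∀ a b : Fin n, ∑ X, avgRel (BlockRel 0 1 a b) f X ^ 2
      = ∑ X, f X ^ 2 - ∑ X, (f X - avgRel (BlockRel 0 1 a b) f X) ^ 2 := by
    intro a b
    have e1 := avgRel_dot (blockRel_equiv (r := r) (c := c) 0 1 a b) f
      (avgRel (BlockRel 0 1 a b) f)
    rw [avgRel_idem (blockRel_equiv 0 1 a b)] at e1
    unfold dot at e1
    have e2 : ∀ X, (f X - avgRel (BlockRel 0 1 a b) f X) ^ 2
        = f X ^ 2 - 2 * (f X * avgRel (BlockRel 0 1 a b) f X)
          + avgRel (BlockRel 0 1 a b) f X * avgRel (BlockRel 0 1 a b) f X := by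
      intro X
      ring
    have e3 : ∀ X, avgRel (BlockRel 0 1 a b) f X ^ 2
        = avgRel (BlockRel 0 1 a b) f X * avgRel (BlockRel 0 1 a b) f X := by
      intro X
      ring
    simp only [e2, e3]
    rw [Finset.sum_add_distrib, Finset.sum_sub_distrib, ← Finset.mul_sum, e1]
    ring
  have hterm : ∀ a b : Fin n, (if a ≠ b then ∑ X, w a b X ^ 2 else 0)
      = (if a ≠ b then (1 : ℝ) else 0) * ∑ X, f X ^ 2
        - (if a ≠ b then ∑ X, (f X - avgRel (BlockRel 0 1 a b) f X) ^ 2 else 0)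
        + (if a ≠ b then
            ∑ d ∈ Finset.Icc 1 (min (c a) (c b)),
              (∑ X ∈ univ.filter (fun X : Omega r c => d ≤ depth2 a b X), f X) ^ 2 /
                ((d : ℝ) * (d + 1) *
                  ((univ.filter (fun X : Omega r c => min (X.1 0 a) (X.1 1 b) = d)).card : ℝ))
          else 0) := by
    intro a b
    by_cases hab : a ≠ b
    · simp only [if_pos hab]
      rw [(hw a b hab).2.2, hpy a b]
      ring
    · simp only [if_neg hab]
      ring
  simp only [hterm, Finset.sum_add_distrib, Finset.sum_sub_distrib, ← Finset.sum_mul]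
  rw [count_ne n]
  have h01 : (0 : Fin 2) ≠ 1 := by decide
  have hgap := block_ge_row_sq (r := r) (c := c) 0 1 h01 f
  have hmean : ∀ X : Omega r c, avgRel (RowRel (r := r) (c := c) 0 1) f X = 0 := by
    intro X
    unfold avgRel
    have hall : univ.filter (fun Y : Omega r c => RowRel 0 1 X Y) = univ := by
      refine Finset.filter_true_of_mem (fun Y _ => ?_)
      intro k hk0 hk1
      exfalso
      have : k = 0 ∨ k = 1 := by omega
      rcases this with h' | h'
      · exact hk0 h'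
      · exact hk1 h'
    rw [hall, hf, zero_div]
  simp only [hmean, sub_zero] at hgap
  have hθn := hθ n
  have hK : 0 ≤ ∑ a : Fin n, ∑ b : Fin n, (if a ≠ b then
      ∑ X, (f X - avgRel (BlockRel 0 1 a b) f X) ^ 2 else 0) :=
    Finset.sum_nonneg (fun a _ => Finset.sum_nonneg (fun b _ => by
      split_ifs
      · exact Finset.sum_nonneg (fun X _ => sq_nonneg _)
      · exact le_refl _))
  nlinarith [mul_nonneg (sub_nonneg.2 hθn) (sub_nonneg.2 hgap)]


open Lift2Aux in
theorem liftHypG_of_liftHyp2G (ε : ℕ → ℝ) (h : LiftHyp2G ε) : LiftHypG ε := by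
  classical
  intro m n r c i j hij f
  have eR := rowRel_equiv (r := r) (c := c) i j
  obtain ⟨g, hg⟩ : ∃ g : Omega r c → ℝ, g = Qrel (RowRel i j) f := ⟨_, rfl⟩
  -- representatives of the classes
  let s : Setoid (Omega r c) := Setoid.mk (RowRel i j) eR
  obtain ⟨rep, hrep1, hrep2⟩ : ∃ rep : Omega r c → Omega r c,
      (∀ X, RowRel i j (rep X) X) ∧ (∀ X Y, RowRel i j X Y → rep X = rep Y) := by
    refine ⟨fun X => (Quotient.mk s X).out, fun X => ?_, fun X Y hXY => ?_⟩
    · exact Quotient.exact (Quotient.out_eq (Quotient.mk s X))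
    · have e : Quotient.mk s X = Quotient.mk s Y := Quotient.sound hXY
      show (Quotient.mk s X).out = (Quotient.mk s Y).out
      rw [e]
  have hrep3 : ∀ X, rep (rep X) = rep X := fun X => hrep2 _ _ (hrep1 X)
  -- the pulled back functions have zero sum
  have hz : ∀ X0 : Omega r c, ∑ Z, g (put X0 i j hij Z) = 0 := by
    intro X0
    rw [← TransferAux.sum_class_embed (put X0 i j hij) (put_inj X0 i j hij)
      (univ.filter (fun X => RowRel i j X0 X)) (mem_class_iff X0 i j hij) g, hg]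
    exact sum_class_Qrel (RowRel i j) eR f X0
  have hex := fun X0 : Omega r c =>
    h n (r2 r i j) (c2 X0 i j) (fun Z => g (put X0 i j hij Z)) (hz X0)
  choose w2 hw2 using hex
  -- the global lifts
  obtain ⟨w, hwdef⟩ : ∃ w : Fin n → Fin n → Omega r c → ℝ, ∀ a b X, w a b X =
      (if hX : ∃ Z, put (rep X) i j hij Z = X then w2 (rep X) a b (Classical.choose hX)
        else 0) := ⟨_, fun _ _ _ => rfl⟩
  have hkey : ∀ (a b : Fin n) (X0 : Omega r c), rep X0 = X0 →
      ∀ Z, w a b (put X0 i j hij Z) = w2 X0 a b Z := by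
    intro a b X0 hX0 Z
    have hr : rep (put X0 i j hij Z) = X0 := by
      rw [← hrep2 X0 _ (row_put X0 i j hij Z)]
      exact hX0
    rw [hwdef]
    exact dite_put_eq i j hij (fun Y => w2 Y a b) X0 _ hr Z
  refine ⟨w, fun a b hab => ⟨?_, ?_⟩, ?_⟩
  · -- zero mean on the level sets
    funext X
    have hX0 := hrep3 X
    obtain ⟨Z, hZ⟩ := exists_put (rep X) X i j hij (hrep1 X)
    rw [← hZ, TransferAux.avgRel_embed (put (rep X) i j hij) (put_inj (rep X) i j hij)
      (TauRowRel i j a b)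
      (fun Z Z' : Omega (r2 r i j) (c2 (rep X) i j) =>
        min (Z.1 0 a) (Z.1 1 b) = min (Z'.1 0 a) (Z'.1 1 b))
      (rel_tau (rep X) i j hij a b)
      (exists_of_rel (rep X) i j hij _ (fun _ _ hh => hh.1)) (w a b) Z]
    have e1 : (fun W => w a b (put (rep X) i j hij W)) = w2 (rep X) a b :=
      funext (fun W => hkey a b (rep X) hX0 W)
    rw [e1]
    have h0 := ((hw2 (rep X)).1 a b hab).1 (min (Z.1 0 a) (Z.1 1 b))
    have h1 : ∑ W ∈ univ.filter (fun W : Omega (r2 r i j) (c2 (rep X) i j) =>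
        min (Z.1 0 a) (Z.1 1 b) = min (W.1 0 a) (W.1 1 b)), w2 (rep X) a b W = 0 := by
      rw [← h0]
      exact Finset.sum_congr (Finset.filter_congr (fun _ _ => eq_comm)) (fun _ _ => rfl)
    unfold avgRel
    rw [h1, zero_div]
    rfl
  · -- the block averages
    funext X
    have hX0 := hrep3 X
    obtain ⟨Z, hZ⟩ := exists_put (rep X) X i j hij (hrep1 X)
    have e1 : (fun W => w a b (put (rep X) i j hij W)) = w2 (rep X) a b :=
      funext (fun W => hkey a b (rep X) hX0 W)
    have hemb : ∀ F : Omega r c → ℝ, avgRel (BlockRel i j a b) F (put (rep X) i j hij Z)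
        = avgRel (BlockRel 0 1 a b) (fun W => F (put (rep X) i j hij W)) Z := fun F =>
      TransferAux.avgRel_embed (put (rep X) i j hij) (put_inj (rep X) i j hij)
        (BlockRel i j a b) (BlockRel 0 1 a b) (rel_block (rep X) i j hij a b)
        (exists_of_rel (rep X) i j hij _ (blockRel_le_rowRel i j a b)) F Z
    have hstep : avgRel (BlockRel i j a b) (w a b) X = avgRel (BlockRel i j a b) g X := by
      rw [← hZ, hemb (w a b), hemb g, e1, ((hw2 (rep X)).1 a b hab).2]
    have hinv : avgRel (BlockRel i j a b) (avgRel (RowRel i j) f) = avgRel (RowRel i j) f :=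
      avgRel_eq_self (blockRel_equiv i j a b) _
        (fun x y hxy => avgRel_of_rel eR f (blockRel_le_rowRel i j a b x y hxy))
    rw [hstep, hg]
    unfold Qrel
    rw [avgRel_sub, hinv]
  · -- the norm bound, class by class
    have hA : ∑ a : Fin n, ∑ b : Fin n, (if a ≠ b then dot (w a b) (w a b) else 0)
        = ∑ X, ∑ a : Fin n, ∑ b : Fin n, (if a ≠ b then (w a b X) ^ 2 else 0) := by
      have e1 : ∀ a b : Fin n, (if a ≠ b then dot (w a b) (w a b) else 0)
          = ∑ X, (if a ≠ b then (w a b X) ^ 2 else 0) := by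
        intro a b
        by_cases hab : a ≠ b
        · simp only [if_pos hab]
          unfold dot
          exact Finset.sum_congr rfl (fun X _ => by ring)
        · simp only [if_neg hab, Finset.sum_const_zero]
      simp only [e1]
      rw [Finset.sum_congr rfl (fun a _ => Finset.sum_comm), Finset.sum_comm]
    have hB : ((n : ℝ) * (n - 1) - ε n) * dot (Qrel (RowRel i j) f) (Qrel (RowRel i j) f)
        = ∑ X, ((n : ℝ) * (n - 1) - ε n) * (g X) ^ 2 := by
      rw [← hg]
      unfold dot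
      rw [Finset.mul_sum]
      exact Finset.sum_congr rfl (fun X _ => by ring)
    rw [hA, hB]
    refine TransferAux.sum_le_of_class (RowRel (r := r) (c := c) i j) eR _ _ (fun X1 => ?_)
    have hX0 := hrep3 X1
    rw [class_eq eR (eR.symm (hrep1 X1)),
      TransferAux.sum_class_embed (put (rep X1) i j hij) (put_inj (rep X1) i j hij) _
        (mem_class_iff (rep X1) i j hij),
      TransferAux.sum_class_embed (put (rep X1) i j hij) (put_inj (rep X1) i j hij) _
        (mem_class_iff (rep X1) i j hij)]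
    have e1 : ∑ Z, (∑ a : Fin n, ∑ b : Fin n,
          (if a ≠ b then (w a b (put (rep X1) i j hij Z)) ^ 2 else 0))
        = ∑ a : Fin n, ∑ b : Fin n, (if a ≠ b then ∑ Z, (w2 (rep X1) a b Z) ^ 2 else 0) := by
      rw [Finset.sum_comm]
      refine Finset.sum_congr rfl (fun a _ => ?_)
      rw [Finset.sum_comm]
      refine Finset.sum_congr rfl (fun b _ => ?_)
      by_cases hab : a ≠ b
      · simp only [if_pos hab, hkey a b (rep X1) hX0]
      · simp only [if_neg hab, Finset.sum_const_zero]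
    have e2 : ∑ Z, ((n : ℝ) * (n - 1) - ε n) * (g (put (rep X1) i j hij Z)) ^ 2
        = ((n : ℝ) * (n - 1) - ε n) * ∑ Z, (g (put (rep X1) i j hij Z)) ^ 2 :=
      (Finset.mul_sum _ _ _).symm
    rw [e1, e2]
    exact (hw2 (rep X1)).2


theorem liftHypColG_of_liftHypG (ε : ℕ → ℝ) (h : LiftHypG ε) : LiftHypColG ε := by
  intro m n r c a b hab f
  obtain ⟨w', hw1, hw2⟩ := h n m c r a b hab (fun X' => f ((transposeEquiv r c).symm X'))
  refine ⟨fun i j X => w' i j (transposeEquiv r c X), ?_, ?_⟩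
  · intro i j hij
    obtain ⟨h0, hB⟩ := hw1 i j hij
    constructor
    · funext X
      have h1 := avgRel_comp_equiv (transposeEquiv r c) (TauColRel i j a b) (TauRowRel a b i j)
        (tauColRel_iff_transpose i j a b) (w' i j) X
      rw [h1, h0]
      rfl
    · funext X
      have h1 := avgRel_comp_equiv (transposeEquiv r c) (BlockRel i j a b) (BlockRel a b i j)
        (blockRel_iff_transpose i j a b) (w' i j) X
      have h2 := avgRel_comp_equiv (transposeEquiv r c) (BlockRel i j a b) (BlockRel a b i j)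
        (blockRel_iff_transpose i j a b) (fun X' => f ((transposeEquiv r c).symm X')) X
      have h3 := avgRel_comp_equiv (transposeEquiv r c) (ColRel a b) (RowRel a b)
        (colRel_iff_transpose a b) (fun X' => f ((transposeEquiv r c).symm X')) X
      simp only [Equiv.symm_apply_apply] at h2 h3
      rw [h1, hB]
      simp only [Pi.sub_apply]
      rw [h2, h3]
  · have hsum : ∑ i : Fin m, ∑ j : Fin m,
        (if i ≠ j then dot (fun X => w' i j (transposeEquiv r c X))
          (fun X => w' i j (transposeEquiv r c X)) else 0)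
        = ∑ i : Fin m, ∑ j : Fin m, (if i ≠ j then dot (w' i j) (w' i j) else 0) := by
      refine Finset.sum_congr rfl (fun i _ => Finset.sum_congr rfl (fun j _ => ?_))
      rw [dot_comp_equiv (transposeEquiv r c) (w' i j)]
    rw [hsum, dot_Qrel_transport (transposeEquiv r c) (ColRel a b) (RowRel a b)
      (colRel_iff_transpose a b) f]
    exact hw2


/-- The summation step with general surpluses, for weighted sums over two finite index types. -/
private theorem lift_sum_ineqG {ι κ : Type*} [Fintype ι] [Fintype κ]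
    (e : ι → ℝ) (e' : κ → ℝ) (R : ι → ℝ) (C : κ → ℝ) (U V D : ι → κ → ℝ) (α β : ℝ)
    (h1 : ∀ p q, e p * e' q * (R p + C q - U p q - V p q) ≤ e p * e' q * (2 * D p q))
    (h2 : ∀ p, e p * ∑ q, e' q * U p q ≤ e p * (((∑ q, e' q) - α) * R p))
    (h3 : ∀ q, e' q * ∑ p, e p * V p q ≤ e' q * (((∑ p, e p) - β) * C q)) :
    α * (∑ p, e p * R p) + β * (∑ q, e' q * C q) ≤ 2 * ∑ p, e p * ∑ q, e' q * D p q := by
  have hT : ∑ p, ∑ q, e p * e' q * (R p + C q - U p q - V p q)
      ≤ ∑ p, ∑ q, e p * e' q * (2 * D p q) :=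
    Finset.sum_le_sum (fun p _ => Finset.sum_le_sum (fun q _ => h1 p q))
  have hR : ∑ p, ∑ q, e p * e' q * (2 * D p q) = 2 * ∑ p, e p * ∑ q, e' q * D p q := by
    rw [Finset.mul_sum]
    refine Finset.sum_congr rfl (fun p _ => ?_)
    rw [Finset.mul_sum, Finset.mul_sum]
    refine Finset.sum_congr rfl (fun q _ => ?_)
    ring
  have t1 : ∑ p, ∑ q, e' q * (e p * R p) = (∑ q, e' q) * (∑ p, e p * R p) := by
    rw [Finset.mul_sum]
    refine Finset.sum_congr rfl (fun p _ => ?_)
    rw [Finset.sum_mul]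
  have t2 : ∑ p, ∑ q, e p * (e' q * C q) = (∑ p, e p) * (∑ q, e' q * C q) := by
    rw [Finset.sum_mul]
    refine Finset.sum_congr rfl (fun p _ => ?_)
    rw [Finset.mul_sum]
  have t3 : ∑ p, ∑ q, e p * (e' q * U p q) = ∑ p, e p * ∑ q, e' q * U p q := by
    refine Finset.sum_congr rfl (fun p _ => ?_)
    rw [Finset.mul_sum]
  have t4 : ∑ p, ∑ q, e' q * (e p * V p q) = ∑ q, e' q * ∑ p, e p * V p q := by
    rw [Finset.sum_comm]
    refine Finset.sum_congr rfl (fun q _ => ?_)
    rw [Finset.mul_sum]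
  have hL : ∑ p, ∑ q, e p * e' q * (R p + C q - U p q - V p q)
      = (∑ q, e' q) * (∑ p, e p * R p) + (∑ p, e p) * (∑ q, e' q * C q)
        - (∑ p, e p * ∑ q, e' q * U p q) - (∑ q, e' q * ∑ p, e p * V p q) := by
    have e1 : ∀ p q, e p * e' q * (R p + C q - U p q - V p q)
        = e' q * (e p * R p) + e p * (e' q * C q) - e p * (e' q * U p q)
          - e' q * (e p * V p q) := by
      intro p q; ring
    rw [← t1, ← t2, ← t3, ← t4]
    simp only [e1, Finset.sum_add_distrib, Finset.sum_sub_distrib]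
  have hU : ∑ p, e p * ∑ q, e' q * U p q ≤ ((∑ q, e' q) - α) * ∑ p, e p * R p := by
    calc ∑ p, e p * ∑ q, e' q * U p q ≤ ∑ p, e p * (((∑ q, e' q) - α) * R p) :=
          Finset.sum_le_sum (fun p _ => h2 p)
      _ = ((∑ q, e' q) - α) * ∑ p, e p * R p := by
          rw [Finset.mul_sum]
          refine Finset.sum_congr rfl (fun p _ => ?_)
          ring
  have hV : ∑ q, e' q * ∑ p, e p * V p q ≤ ((∑ p, e p) - β) * ∑ q, e' q * C q := by
    calc ∑ q, e' q * ∑ p, e p * V p q ≤ ∑ q, e' q * (((∑ p, e p) - β) * C q) :=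
          Finset.sum_le_sum (fun q _ => h3 q)
      _ = ((∑ p, e p) - β) * ∑ q, e' q * C q := by
          rw [Finset.mul_sum]
          refine Finset.sum_congr rfl (fun q _ => ?_)
          ring
  rw [hL, hR] at hT
  have x1 : ((∑ q, e' q) - α) * ∑ p, e p * R p
      = (∑ q, e' q) * (∑ p, e p * R p) - α * ∑ p, e p * R p := by ring
  have x2 : ((∑ p, e p) - β) * ∑ q, e' q * C q
      = (∑ p, e p) * (∑ q, e' q * C q) - β * ∑ q, e' q * C q := by ring
  rw [x1] at hU
  rw [x2] at hV
  linarith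

/-- The indicator weight of ordered pairs of distinct indices. -/
private noncomputable def offWG {k : ℕ} (p : Fin k × Fin k) : ℝ := if p.1 ≠ p.2 then 1 else 0

private theorem offWG_sum (k : ℕ) : ∑ p : Fin k × Fin k, offWG p = (k : ℝ) * ((k : ℝ) - 1) := by
  rw [← count_ne k, Fintype.sum_prod_type]
  rfl

private theorem offWG_sum_mul {k : ℕ} (F : Fin k → Fin k → ℝ) :
    ∑ p : Fin k × Fin k, offWG p * F p.1 p.2 = ∑ a, ∑ b, if a ≠ b then F a b else 0 := by
  rw [Fintype.sum_prod_type]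
  refine Finset.sum_congr rfl (fun a _ => Finset.sum_congr rfl (fun b _ => ?_))
  unfold offWG
  by_cases hab : a ≠ b
  · simp only [if_pos hab, one_mul]
  · simp only [if_neg hab, zero_mul]

theorem acHypG_of_lift (ε : ℕ → ℝ) (h : LiftHypG ε) (h' : LiftHypColG ε) : ACHypG ε := by
  intro m n r c f
  -- the lifts for the row pairs
  have hW : ∀ i j : Fin m, ∃ w : Fin n → Fin n → Omega r c → ℝ, i ≠ j →
      ((∀ a b : Fin n, a ≠ b →
        avgRel (TauRowRel i j a b) (w a b) = 0 ∧
        avgRel (BlockRel i j a b) (w a b)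
          = avgRel (BlockRel i j a b) f - avgRel (RowRel i j) f) ∧
      ∑ a : Fin n, ∑ b : Fin n, (if a ≠ b then dot (w a b) (w a b) else 0)
        ≤ ((n : ℝ) * (n - 1) - ε n) * dot (Qrel (RowRel i j) f) (Qrel (RowRel i j) f)) := by
    intro i j
    by_cases hij : i ≠ j
    · obtain ⟨w, hw⟩ := h m n r c i j hij f
      exact ⟨w, fun _ => hw⟩
    · exact ⟨fun _ _ _ => 0, fun hh => absurd hh hij⟩
  choose W hW using hW
  -- the lifts for the column pairs
  have hW' : ∀ a b : Fin n, ∃ w : Fin m → Fin m → Omega r c → ℝ, a ≠ b →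
      ((∀ i j : Fin m, i ≠ j →
        avgRel (TauColRel i j a b) (w i j) = 0 ∧
        avgRel (BlockRel i j a b) (w i j)
          = avgRel (BlockRel i j a b) f - avgRel (ColRel a b) f) ∧
      ∑ i : Fin m, ∑ j : Fin m, (if i ≠ j then dot (w i j) (w i j) else 0)
        ≤ ((m : ℝ) * (m - 1) - ε m) * dot (Qrel (ColRel a b) f) (Qrel (ColRel a b) f)) := by
    intro a b
    by_cases hab : a ≠ b
    · obtain ⟨w, hw⟩ := h' m n r c a b hab f
      exact ⟨w, fun _ => hw⟩
    · exact ⟨fun _ _ _ => 0, fun hh => absurd hh hab⟩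
  choose W' hW' using hW'
  -- the three sums
  have eR : dot f (KR f) = ∑ p : Fin m × Fin m, offWG p *
      dot (Qrel (RowRel (r := r) (c := c) p.1 p.2) f) (Qrel (RowRel p.1 p.2) f) := by
    rw [offWG_sum_mul (fun i j => dot (Qrel (RowRel (r := r) (c := c) i j) f)
      (Qrel (RowRel i j) f))]
    exact dot_Ksum_self (fun i j => rowRel_equiv i j) f
  have eC : dot f (KC f) = ∑ q : Fin n × Fin n, offWG q *
      dot (Qrel (ColRel (r := r) (c := c) q.1 q.2) f) (Qrel (ColRel q.1 q.2) f) := by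
    rw [offWG_sum_mul (fun a b => dot (Qrel (ColRel (r := r) (c := c) a b) f)
      (Qrel (ColRel a b) f))]
    exact dot_Ksum_self (fun a b => colRel_equiv a b) f
  have eD : dot (KR f) (KC f) = ∑ p : Fin m × Fin m, offWG p *
      ∑ q : Fin n × Fin n, offWG q *
        dot (Qrel (RowRel (r := r) (c := c) p.1 p.2) f) (Qrel (ColRel q.1 q.2) f) := by
    rw [offWG_sum_mul (fun i j => ∑ q : Fin n × Fin n, offWG q *
        dot (Qrel (RowRel (r := r) (c := c) i j) f) (Qrel (ColRel q.1 q.2) f))]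
    unfold KR
    rw [dot_Ksum_left]
    refine Finset.sum_congr rfl (fun i _ => Finset.sum_congr rfl (fun j _ => ?_))
    by_cases hij : i ≠ j
    · rw [if_pos hij, if_pos hij]
      rw [offWG_sum_mul (fun a b => dot (Qrel (RowRel (r := r) (c := c) i j) f)
        (Qrel (ColRel a b) f))]
      unfold KC
      rw [dot_Ksum_right]
    · rw [if_neg hij, if_neg hij]
  rw [eR, eC, eD]
  refine lift_sum_ineqG offWG offWG _ _
    (fun p q => dot (W p.1 p.2 q.1 q.2) (W p.1 p.2 q.1 q.2))
    (fun p q => dot (W' q.1 q.2 p.1 p.2) (W' q.1 q.2 p.1 p.2)) _ (ε n) (ε m) ?_ ?_ ?_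
  · rintro ⟨i, j⟩ ⟨a, b⟩
    by_cases hij : i ≠ j
    · by_cases hab : a ≠ b
      · have e1 : offWG (i, j) = 1 := if_pos hij
        have e2 : offWG (a, b) = 1 := if_pos hab
        rw [e1, e2, one_mul, one_mul, one_mul]
        obtain ⟨hw1, hw2⟩ := (hW i j hij).1 a b hab
        obtain ⟨hw3, hw4⟩ := (hW' a b hab).1 i j hij
        exact loc_global i j hij a b hab f (W i j a b) (W' a b i j) hw1 hw2 hw3 hw4
      · have e2 : offWG (a, b) = 0 := if_neg hab
        rw [e2, mul_zero, zero_mul, zero_mul]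
    · have e1 : offWG (i, j) = 0 := if_neg hij
      rw [e1, zero_mul, zero_mul, zero_mul]
  · rintro ⟨i, j⟩
    by_cases hij : i ≠ j
    · have e1 : offWG (i, j) = 1 := if_pos hij
      rw [e1, one_mul, one_mul, offWG_sum]
      have := (hW i j hij).2
      rw [offWG_sum_mul (fun a b => dot (W i j a b) (W i j a b))]
      exact this
    · have e1 : offWG (i, j) = 0 := if_neg hij
      rw [e1, zero_mul, zero_mul]
  · rintro ⟨a, b⟩
    by_cases hab : a ≠ b
    · have e1 : offWG (a, b) = 1 := if_pos hab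
      rw [e1, one_mul, one_mul, offWG_sum]
      have := (hW' a b hab).2
      rw [offWG_sum_mul (fun i j => dot (W' a b i j) (W' a b i j))]
      exact this
    · have e1 : offWG (a, b) = 0 := if_neg hab
      rw [e1, zero_mul, zero_mul]


variable {m n : ℕ} {r : Fin m → ℕ} {c : Fin n → ℕ}

/-- Under the anticommutator hypothesis with constants at least `δ`, `M^2 ≥ δ M` for
`M = KR + KC`. -/
theorem ac_sqG (ε : ℕ → ℝ) (h : ACHypG ε) (δ : ℝ) (hδn : δ ≤ ε n) (hδm : δ ≤ ε m)
    (f : Omega r c → ℝ) : δ * dot f (KM f) ≤ dot (KM f) (KM f) := by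
  have hac := h m n r c f
  have e1 : dot f (KM f) = dot f (KR f) + dot f (KC f) := by
    unfold KM; rw [dot_add_right]
  have e2 : dot (KM f) (KM f) = dot (KR f) (KR f) + dot (KC f) (KC f)
      + 2 * dot (KR f) (KC f) := by
    unfold KM
    rw [dot_add_left, dot_add_right, dot_add_right, dot_comm (KC f) (KR f)]
    ring
  have n1 := dot_self_nonneg (KR f)
  have n2 := dot_self_nonneg (KC f)
  have p1 := dot_KR_nonneg f
  have p2 := dot_KC_nonneg f
  have q1 : δ * dot f (KR f) ≤ ε n * dot f (KR f) := mul_le_mul_of_nonneg_right hδn p1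
  have q2 : δ * dot f (KC f) ≤ ε m * dot f (KC f) := mul_le_mul_of_nonneg_right hδm p2
  rw [e1, e2]
  nlinarith

/-- Every eigenvalue of `KR + KC` is `0` or at least `δ`. -/
theorem ac_eigenG (ε : ℕ → ℝ) (h : ACHypG ε) (δ : ℝ) (hδn : δ ≤ ε n) (hδm : δ ≤ ε m)
    (μ : ℝ) (g : Omega r c → ℝ) (hg : g ≠ 0) (hμ : KM g = μ • g) : μ = 0 ∨ δ ≤ μ := by
  have hsq := ac_sqG ε h δ hδn hδm g
  rw [hμ, dot_smul_right, dot_smul_left, dot_smul_right] at hsq
  have hpos : 0 < dot g g := by
    rcases (dot_self_nonneg g).lt_or_eq with h' | h'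
    · exact h'
    · exact absurd (dot_self_eq_zero h'.symm) hg
  have hnn : 0 ≤ μ * dot g g := by
    have e : dot g (KM g) = dot g (KR g) + dot g (KC g) := by
      unfold KM; rw [dot_add_right]
    have := dot_KR_nonneg g
    have := dot_KC_nonneg g
    rw [hμ, dot_smul_right] at e
    linarith
  have hμ0 : 0 ≤ μ := by
    by_contra hcon
    have : μ * dot g g < 0 := mul_neg_of_neg_of_pos (lt_of_not_ge hcon) hpos
    linarith
  by_cases h0 : μ = 0
  · exact Or.inl h0
  right
  have hμpos : 0 < μ := lt_of_le_of_ne hμ0 (Ne.symm h0)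
  by_contra hcon
  have hlt : μ < δ := lt_of_not_ge hcon
  have h1 : 0 < μ * dot g g := mul_pos hμpos hpos
  have h2 : μ * (μ * dot g g) < δ * (μ * dot g g) := mul_lt_mul_of_pos_right hlt h1
  linarith

/-- The gap of `KR + KC` from the anticommutator hypothesis with general constants. -/
theorem ac_gapG (ε : ℕ → ℝ) (h : ACHypG ε) (δ : ℝ) (hδn : δ ≤ ε n) (hδm : δ ≤ ε m)
    (f : Omega r c → ℝ) :
    δ * dot (Qrel AllRel f) (Qrel AllRel f) ≤ dot f (KR f) + dot f (KC f) := by
  have hker : ∀ g : Omega r c → ℝ, KM g = 0 → dot (Qrel AllRel f) g = 0 := by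
    intro g hg
    have hinv := KM_ker_const g hg
    rw [← Qrel_dot allRel_equiv, Qrel_eq_zero_of_inv allRel_equiv g (fun x y _ => hinv x y),
      dot_zero_right]
  have hgap := Pending.spec_gap (KM (r := r) (c := c)) KM_add KM_smul KM_dot δ
    (fun μ g hg hμ => ac_eigenG ε h δ hδn hδm μ g hg hμ) (Qrel AllRel f) hker
  have hK : KM (Qrel AllRel f) = KM f := by
    have e : Qrel AllRel f = f + (-1 : ℝ) • avgRel AllRel f := by
      unfold Qrel; funext x; simp [sub_eq_add_neg]
    rw [e, KM_add, KM_smul, KM_avg_all]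
    simp
  have e2 : dot (Qrel AllRel f) (KM f) = dot f (KM f) := by
    have e3 : dot (avgRel AllRel f) (KM f) = 0 := by
      rw [KM_dot, KM_avg_all, dot_zero_left]
    unfold Qrel
    rw [dot_sub_left, e3, sub_zero]
  have e4 : dot f (KM f) = dot f (KR f) + dot f (KC f) := by
    unfold KM; rw [dot_add_right]
  rw [hK, e2, e4] at hgap
  exact hgap

/-- Poincare inequality of the `2 x 2` heat-bath chain from the anticommutator hypothesis with
general constants. -/
theorem poincare_of_ACG (ε : ℕ → ℝ) (h : ACHypG ε) (δ : ℝ) (hδn : δ ≤ ε n) (hδm : δ ≤ ε m)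
    (f : Omega r c → ℝ) (hf : ∑ X, f X = 0) :
    δ / ((m : ℝ) * (m - 1) * ((n : ℝ) * (n - 1))) * ∑ X, f X ^ 2
      ≤ (1 / 2 : ℝ) * ∑ X, ∑ Y, blockChain r c X Y * (f X - f Y) ^ 2 := by
  rw [blockChain_dirichlet']
  have h1 := SBtot_ge_KR f
  have h1' := SBtot_ge_KC f
  have h2 := ac_gapG ε h δ hδn hδm f
  rw [Qrel_allRel_of_sum_zero f hf, dot_self_eq_sum_sq] at h2
  have hd := denom_nonneg m n
  have e : δ / ((m : ℝ) * (m - 1) * ((n : ℝ) * (n - 1))) * ∑ X, f X ^ 2
      = 1 / ((m : ℝ) * (m - 1) * ((n : ℝ) * (n - 1))) * (δ * ∑ X, f X ^ 2) := by ring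
  rw [e]
  exact mul_le_mul_of_nonneg_left (by linarith) (by positivity)

/-- The anticommutator hypothesis with general constants from the surplus inequality with
general constants. -/
theorem acHypG_of_surHypG (θ κ : ℕ → ℝ) (h : SurHypG θ κ) (hθ : ∀ k, θ k ≤ 1) :
    ACHypG (fun k => κ k + 2 * (1 - θ k)) := by
  have h1 := liftHypG_of_liftHyp2G _ (liftHyp2G_of_surHypG θ κ h hθ)
  exact acHypG_of_lift _ h1 (liftHypColG_of_liftHypG _ h1)

/-- Main conditional theorem with general constants: the surplus inequality on two-row classes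
with constants `θ ≤ 1` and `κ` gives the Poincare inequality with constant
`δ / (m (m - 1) n (n - 1))` for every `0 < δ ≤ 2` below `κ k + 2 (1 - θ k)`, `k = m, n`, and the
corresponding mixing time of the lazy `2 x 2` heat-bath chain. -/
theorem main_surG (θ κ : ℕ → ℝ) (h : SurHypG θ κ) (hθ : ∀ k, θ k ≤ 1) (hm : 2 ≤ m) (hn : 2 ≤ n)
    (r : Fin m → ℕ) (c : Fin n → ℕ) (δ : ℝ) (hδ0 : 0 < δ) (hδ2 : δ ≤ 2)
    (hδm : δ ≤ κ m + 2 * (1 - θ m)) (hδn : δ ≤ κ n + 2 * (1 - θ n)) :
    (∀ f : Omega r c → ℝ, ∑ X, f X = 0 →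
      δ / ((m : ℝ) * (m - 1) * ((n : ℝ) * (n - 1))) * ∑ X, f X ^ 2
        ≤ (1 / 2 : ℝ) * ∑ X, ∑ Y, blockChain r c X Y * (f X - f Y) ^ 2) ∧
    ∀ (η : ℝ), 0 < η → ∀ t : ℕ,
      2 * ((m : ℝ) * (m - 1) * ((n : ℝ) * (n - 1))) / δ
        * ((m : ℝ) * ∑ j, Real.log ((c j : ℝ) + 1) + 2 * Real.log (1 / η)) ≤ t →
      ∀ X : Omega r c,
        (1 / 2 : ℝ) * ∑ Y, |(((1 / 2 : ℝ) • (1 + blockChain r c)) ^ t) X Y
          - 1 / (Fintype.card (Omega r c) : ℝ)| ≤ η := by
  have hAC := acHypG_of_surHypG θ κ h hθ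
  have hP : ∀ f : Omega r c → ℝ, ∑ X, f X = 0 →
      δ / ((m : ℝ) * (m - 1) * ((n : ℝ) * (n - 1))) * ∑ X, f X ^ 2
        ≤ (1 / 2 : ℝ) * ∑ X, ∑ Y, blockChain r c X Y * (f X - f Y) ^ 2 :=
    fun f hf => poincare_of_ACG _ hAC δ hδn hδm f hf
  refine ⟨hP, fun η hη t ht X => ?_⟩
  have hm' : (2 : ℝ) ≤ m := by exact_mod_cast hm
  have hn' : (2 : ℝ) ≤ n := by exact_mod_cast hn
  have hD : (4 : ℝ) ≤ (m : ℝ) * (m - 1) * ((n : ℝ) * (n - 1)) := by
    have a1 : 2 ≤ (m : ℝ) * (m - 1) := by nlinarith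
    have a2 : 2 ≤ (n : ℝ) * (n - 1) := by nlinarith
    nlinarith
  have hDpos : (0 : ℝ) < (m : ℝ) * (m - 1) * ((n : ℝ) * (n - 1)) := by linarith
  have hγ0 : 0 < δ / ((m : ℝ) * (m - 1) * ((n : ℝ) * (n - 1))) := div_pos hδ0 hDpos
  have hγ2 : δ / ((m : ℝ) * (m - 1) * ((n : ℝ) * (n - 1))) ≤ 2 := by
    rw [div_le_iff₀ hDpos]
    linarith
  refine block_mixing_time_of_poincare hm hn r c _ hγ0 hγ2 hP η hη t ?_ X
  have e : 2 / (δ / ((m : ℝ) * (m - 1) * ((n : ℝ) * (n - 1))))
      = 2 * ((m : ℝ) * (m - 1) * ((n : ℝ) * (n - 1))) / δ := by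
    field_simp
  rw [e]
  exact ht

end Vale.Agent.H91.CT
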