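import Vale.Agent.H91.CT.Sur2

/-!
P328: the lift characterisation of the closed-form penalty in the abstract layered framework
`Sur2Aux` (lower bound).  For a centred `f`, every `w` with the class averages of `f` and zero
level sums satisfies `|w|^2 ≥ |S f|^2 + pen f`; together with `Sur2Aux.exists_lift` this says
that `|S f|^2 + pen f` is the minimum of `|w|^2` over the admissible lifts.
-/

namespace Vale.Agent.H91.CT

open Finset Vale.Agent.H90

namespace Sur2Aux

set_option linter.unusedSectionVars false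

section abs

variable {Ω : Type*} [Fintype Ω] [DecidableEq Ω] (R : Ω → Ω → Prop) [DecidableRel R]
  (T D : Ω → ℕ)

/-- The level is at most the depth. -/
theorem T_le_D (hR : Equivalence R)
    (hCL : ∀ (X : Ω) (G : ℕ → ℝ),
      ∑ Y ∈ univ.filter (fun Y => R X Y), G (T Y) = ∑ s ∈ range (D X + 1), G s) (X : Ω) :
    T X ≤ D X := by
  by_contra hlt
  have h := hCL X (fun s => if D X < s then (1 : ℝ) else 0)
  have h0 : ∑ s ∈ range (D X + 1), (if D X < s then (1 : ℝ) else 0) = 0 := by
    refine Finset.sum_eq_zero (fun s hs => ?_)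
    have := mem_range.1 hs
    rw [if_neg (by omega)]
  rw [h0] at h
  have hnn : ∀ Y ∈ univ.filter (fun Y => R X Y), (0 : ℝ) ≤ (if D X < T Y then (1 : ℝ) else 0) := by
    intro Y _
    split_ifs <;> norm_num
  have h1 := (Finset.sum_eq_zero_iff_of_nonneg hnn).1 h X
    (mem_filter.2 ⟨mem_univ X, hR.refl X⟩)
  rw [if_pos (by omega)] at h1
  norm_num at h1

/-- Summation by levels. -/
theorem sum_by_level (M : ℕ) (hT : ∀ X, T X ≤ M) (g : ℕ → ℝ) (w : Ω → ℝ) :
    ∑ X, g (T X) * w X = ∑ t ∈ range (M + 1), g t * ∑ X ∈ univ.filter (fun X => T X = t), w X := by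
  have hmaps : ∀ X ∈ (univ : Finset Ω), T X ∈ range (M + 1) := fun X _ =>
    mem_range.2 (Nat.lt_succ_of_le (hT X))
  rw [← Finset.sum_fiberwise_of_maps_to hmaps (fun X => g (T X) * w X)]
  refine Finset.sum_congr rfl (fun t _ => ?_)
  rw [Finset.mul_sum]
  refine Finset.sum_congr rfl (fun X hX => ?_)
  rw [(mem_filter.1 hX).2]

/-- Pairing of a function with zero level sums against the `j`-th Helmert function. -/
theorem helmert_pair (hR : Equivalence R)
    (hCL : ∀ (X : Ω) (G : ℕ → ℝ),
      ∑ Y ∈ univ.filter (fun Y => R X Y), G (T Y) = ∑ s ∈ range (D X + 1), G s)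
    (M : ℕ) (hM : ∀ X, D X ≤ M) (w : Ω → ℝ)
    (hw : ∀ t : ℕ, ∑ X ∈ univ.filter (fun X => T X = t), w X = 0) (j : ℕ) :
    ∑ X, (if j ≤ D X then hh j (T X) else 0) * w X = - Gam D w j := by
  have hTD := T_le_D R T D hR hCL
  have e : ∀ X, (if j ≤ D X then hh j (T X) else 0) * w X
      = (fun t : ℕ => ((j : ℝ) + 1) * (if t = j then (1 : ℝ) else 0)
            + (if j < t then (1 : ℝ) else 0)) (T X) * w X
        - (if j ≤ D X then w X else 0) := by
    intro X
    have h1 := hTD X
    show (if j ≤ D X then hh j (T X) else 0) * w X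
      = (((j : ℝ) + 1) * (if T X = j then (1 : ℝ) else 0) + (if j < T X then (1 : ℝ) else 0))
          * w X - (if j ≤ D X then w X else 0)
    by_cases hj : j ≤ D X
    · rw [if_pos hj, if_pos hj]
      rcases lt_trichotomy (T X) j with h | h | h
      · rw [hh_lt h, if_neg (by omega), if_neg (by omega)]
        ring
      · rw [h, hh_self, if_pos rfl, if_neg (by omega)]
        ring
      · rw [hh_gt h, if_neg (by omega), if_pos h]
        ring
    · rw [if_neg hj, if_neg hj, if_neg (by omega), if_neg (by omega)]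
      ring
  rw [Finset.sum_congr rfl (fun X _ => e X), Finset.sum_sub_distrib,
    sum_by_level T M (fun X => le_trans (hTD X) (hM X))
      (fun t : ℕ => ((j : ℝ) + 1) * (if t = j then (1 : ℝ) else 0)
            + (if j < t then (1 : ℝ) else 0)) w]
  have z : ∑ t ∈ range (M + 1), (((j : ℝ) + 1) * (if t = j then (1 : ℝ) else 0)
      + (if j < t then (1 : ℝ) else 0)) * ∑ X ∈ univ.filter (fun X => T X = t), w X = 0 := by
    refine Finset.sum_eq_zero (fun t _ => ?_)
    rw [hw t, mul_zero]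
  rw [z, zero_sub]
  unfold Gam
  rw [Finset.sum_filter]

/-- `Gam` only depends on the class averages. -/
theorem Gam_avg (hR : Equivalence R) (hD : ∀ X Y, R X Y → D X = D Y) (w f : Ω → ℝ)
    (h : avgRel R w = avgRel R f) (j : ℕ) : Gam D w j = Gam D f j := by
  have key : ∀ g : Ω → ℝ, Gam D g j = dot (fun X => if j ≤ D X then (1 : ℝ) else 0) (avgRel R g) := by
    intro g
    rw [avgRel_dot hR, avgRel_eq_self hR _ (fun X Y hXY => by rw [hD X Y hXY])]
    unfold Gam dot
    rw [Finset.sum_filter]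
    refine Finset.sum_congr rfl (fun X _ => ?_)
    show (if j ≤ D X then g X else 0) = (if j ≤ D X then (1 : ℝ) else 0) * g X
    by_cases hj : j ≤ D X
    · rw [if_pos hj, if_pos hj, one_mul]
    · rw [if_neg hj, if_neg hj, zero_mul]
  rw [key w, key f, h]

/-- Pairing of an admissible lift with the correction. -/
theorem corr_pair (hR : Equivalence R) (hD : ∀ X Y, R X Y → D X = D Y)
    (hCL : ∀ (X : Ω) (G : ℕ → ℝ),
      ∑ Y ∈ univ.filter (fun Y => R X Y), G (T Y) = ∑ s ∈ range (D X + 1), G s)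
    (M : ℕ) (hM : ∀ X, D X ≤ M) (f w : Ω → ℝ)
    (hw : ∀ t : ℕ, ∑ X ∈ univ.filter (fun X => T X = t), w X = 0)
    (hwf : avgRel R w = avgRel R f) :
    ∑ X, corr T D f X * w X = - ∑ j ∈ Icc 1 M, kap T D f j * Gam D f j := by
  have e : ∀ X, corr T D f X * w X
      = ∑ j ∈ Icc 1 M, kap T D f j * ((if j ≤ D X then hh j (T X) else 0) * w X) := by
    intro X
    unfold corr
    rw [Finset.sum_mul]
    have hsub : Icc 1 (D X) ⊆ Icc 1 M := Finset.Icc_subset_Icc (le_refl _) (hM X)
    rw [← Finset.sum_subset hsub]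
    · refine Finset.sum_congr rfl (fun j hj => ?_)
      rw [if_pos (mem_Icc.1 hj).2]
      ring
    · intro j hj hj'
      have : ¬ j ≤ D X := by
        intro hle
        exact hj' (mem_Icc.2 ⟨(mem_Icc.1 hj).1, hle⟩)
      rw [if_neg this, zero_mul, mul_zero]
  rw [Finset.sum_congr rfl (fun X _ => e X), Finset.sum_comm, ← Finset.sum_neg_distrib]
  refine Finset.sum_congr rfl (fun j _ => ?_)
  rw [← Finset.mul_sum, helmert_pair R T D hR hCL M hM w hw j, Gam_avg R D hR hD w f hwf j]
  ring

/-- Lower bound: every admissible lift of a centred `f` has squared norm at least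
`|S f|^2 + pen f`. -/
theorem lift_lower (hR : Equivalence R) (hD : ∀ X Y, R X Y → D X = D Y)
    (hCL : ∀ (X : Ω) (G : ℕ → ℝ),
      ∑ Y ∈ univ.filter (fun Y => R X Y), G (T Y) = ∑ s ∈ range (D X + 1), G s)
    (M : ℕ) (hM : ∀ X, D X ≤ M) (f : Ω → ℝ) (hf : ∑ X, f X = 0) (w : Ω → ℝ)
    (hw : ∀ t : ℕ, ∑ X ∈ univ.filter (fun X => T X = t), w X = 0)
    (hwf : avgRel R w = avgRel R f) :
    ∑ X, avgRel R f X ^ 2
        + ∑ d ∈ Icc 1 M, (∑ X ∈ univ.filter (fun X => d ≤ D X), f X) ^ 2 /
            ((d : ℝ) * (d + 1) * ((univ.filter (fun X => T X = d)).card : ℝ))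
      ≤ ∑ X, w X ^ 2 := by
  -- the optimal lift
  set w0 : Ω → ℝ := fun X => avgRel R f X - corr T D f X with hw0
  have h0lev : ∀ t : ℕ, ∑ X ∈ univ.filter (fun X => T X = t), w0 X = 0 :=
    level_sum R T D hR hD hCL M hM f hf
  have h0avg : avgRel R w0 = avgRel R f := by
    have e : w0 = avgRel R f - corr T D f := rfl
    rw [e, avgRel_sub, avgRel_idem hR, avg_corr R T D hD hCL f, sub_zero]
  have hcross : ∑ X, avgRel R f X * corr T D f X = 0 := by
    have h := avgRel_dot hR f (corr T D f)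
    rw [avg_corr R T D hD hCL f, dot_zero_right] at h
    exact h.symm
  have h0sq : ∑ X, w0 X ^ 2 = ∑ X, avgRel R f X ^ 2
        + ∑ d ∈ Icc 1 M, (∑ X ∈ univ.filter (fun X => d ≤ D X), f X) ^ 2 /
            ((d : ℝ) * (d + 1) * ((univ.filter (fun X => T X = d)).card : ℝ)) := by
    have e : ∀ X, w0 X ^ 2
        = avgRel R f X ^ 2 - 2 * (avgRel R f X * corr T D f X) + corr T D f X ^ 2 := by
      intro X
      rw [hw0]
      ring
    rw [Finset.sum_congr rfl (fun X _ => e X), Finset.sum_add_distrib, Finset.sum_sub_distrib,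
      ← Finset.mul_sum, hcross, corr_sq R T D hR hD hCL M hM f]
    simp only [Gam, Nn]
    ring
  -- orthogonality
  have hSw : ∑ X, avgRel R f X * w X = ∑ X, avgRel R f X * w0 X := by
    have h1 := avgRel_dot hR f w
    have h2 := avgRel_dot hR f w0
    rw [hwf] at h1
    rw [h0avg] at h2
    unfold dot at h1 h2
    rw [← h1, ← h2]
  have hCw : ∑ X, corr T D f X * w X = ∑ X, corr T D f X * w0 X := by
    rw [corr_pair R T D hR hD hCL M hM f w hw hwf,
      corr_pair R T D hR hD hCL M hM f w0 h0lev h0avg]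
  have horth : ∑ X, w0 X * (w X - w0 X) = 0 := by
    have e : ∀ X, w0 X * (w X - w0 X)
        = (avgRel R f X * w X - avgRel R f X * w0 X)
          - (corr T D f X * w X - corr T D f X * w0 X) := by
      intro X
      rw [hw0]
      ring
    rw [Finset.sum_congr rfl (fun X _ => e X), Finset.sum_sub_distrib, Finset.sum_sub_distrib,
      Finset.sum_sub_distrib, hSw, hCw]
    ring
  rw [← h0sq]
  have e : ∀ X, w X ^ 2 = w0 X ^ 2 + 2 * (w0 X * (w X - w0 X)) + (w X - w0 X) ^ 2 := by
    intro X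
    ring
  rw [Finset.sum_congr rfl (fun X _ => e X), Finset.sum_add_distrib, Finset.sum_add_distrib,
    ← Finset.mul_sum, horth]
  have hnn : 0 ≤ ∑ X, (w X - w0 X) ^ 2 := Finset.sum_nonneg (fun X _ => sq_nonneg _)
  linarith

end abs

end Sur2Aux

end Vale.Agent.H91.CT
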