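import Vale.Agent.H91.CT.BoxStruct14
import Vale.Agent.H91.CT.LiftLower

/-!
P328: the lift calculus on box-slice classes (definitions of `Vale.Agent.H14.CT`).

For an ordered pair of distinct columns `a, b` and a centred `f`,
`T_ab(f) := |S_ab f|^2 + penB a b f` is the minimum of `|w|^2` over the admissible lifts `w`:
`w` has the line averages of `f` and zero sum on every level.  The level function may be
`levelB a b` or any other function `T'` that takes each value `0, …, depth` once on every line.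
-/

namespace Vale.Agent.H14.CT

open Finset Vale.Agent.H90 Vale.Agent.H91.CT

variable {n : ℕ} {s : Fin n → ℕ} {ρ : ℕ}

theorem depthB_le (a b : Fin n) (z : Box n s ρ) : depthB a b z ≤ min (s a) (s b) := by
  unfold depthB
  exact min_le_right _ _

/-- Pythagoras for the line averages. -/
theorem QB_eq (a b : Fin n) (f : Box n s ρ → ℝ) :
    QB a b f = ∑ z, f z ^ 2 - ∑ z, avgRel (LineRel a b) f z ^ 2 := by
  have hR := lineRel_equiv (s := s) (ρ := ρ) a b
  have h1 : ∑ z, f z * avgRel (LineRel a b) f z = ∑ z, avgRel (LineRel a b) f z ^ 2 := by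
    have h := avgRel_dot hR f (avgRel (LineRel a b) f)
    rw [avgRel_idem hR] at h
    unfold dot at h
    rw [h]
    exact Finset.sum_congr rfl (fun z _ => by ring)
  unfold QB
  have e : ∀ z, (f z - avgRel (LineRel a b) f z) ^ 2
      = f z ^ 2 - 2 * (f z * avgRel (LineRel a b) f z) + avgRel (LineRel a b) f z ^ 2 := by
    intro z
    ring
  rw [Finset.sum_congr rfl (fun z _ => e z), Finset.sum_add_distrib, Finset.sum_sub_distrib,
    ← Finset.mul_sum, h1]
  ring

/-- The level counts do not depend on the level function. -/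
theorem card_level_eq (a b : Fin n) (hab : a ≠ b) (T' : Box n s ρ → ℕ)
    (hCL' : ∀ (z : Box n s ρ) (G : ℕ → ℝ),
      ∑ z' ∈ univ.filter (fun z' => LineRel a b z z'), G (T' z')
        = ∑ t ∈ range (depthB a b z + 1), G t) (d : ℕ) :
    ((univ.filter (fun z : Box n s ρ => T' z = d)).card : ℝ)
      = ((univ.filter (fun z : Box n s ρ => levelB a b z = d)).card : ℝ) := by
  have hR := lineRel_equiv (s := s) (ρ := ρ) a b
  have hD := depthB_const (s := s) (ρ := ρ) a b hab
  have h1 := Sur2Aux.Nn_eq (LineRel a b) T' (depthB a b) hR hD hCL' d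
  have h2 := Sur2Aux.Nn_eq (LineRel a b) (levelB a b) (depthB a b) hR hD
    (fun z G => box_class_level a b hab z G) d
  unfold Sur2Aux.Nn at h1 h2
  rw [h1, h2]

/-- Lower bound with an arbitrary level function: every `w` with the line averages of a centred
`f` and zero sums on the levels of `T'` has `|w|^2 ≥ |S f|^2 + penB f`. -/
theorem penB_le_of_lift' (a b : Fin n) (hab : a ≠ b) (T' : Box n s ρ → ℕ)
    (hCL' : ∀ (z : Box n s ρ) (G : ℕ → ℝ),
      ∑ z' ∈ univ.filter (fun z' => LineRel a b z z'), G (T' z')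
        = ∑ t ∈ range (depthB a b z + 1), G t)
    (f : Box n s ρ → ℝ) (hf : ∑ z, f z = 0) (w : Box n s ρ → ℝ)
    (hw : ∀ t : ℕ, ∑ z ∈ univ.filter (fun z => T' z = t), w z = 0)
    (hwf : avgRel (LineRel a b) w = avgRel (LineRel a b) f) :
    ∑ z, avgRel (LineRel a b) f z ^ 2 + penB a b f ≤ ∑ z, w z ^ 2 := by
  have hR := lineRel_equiv (s := s) (ρ := ρ) a b
  have hD := depthB_const (s := s) (ρ := ρ) a b hab
  have h := Sur2Aux.lift_lower (LineRel a b) T' (depthB a b) hR hD hCL' (min (s a) (s b))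
    (fun z => depthB_le a b z) f hf w hw hwf
  have e : penB a b f = ∑ d ∈ Icc 1 (min (s a) (s b)),
      (∑ z ∈ univ.filter (fun z : Box n s ρ => d ≤ depthB a b z), f z) ^ 2 /
        ((d : ℝ) * (d + 1) * ((univ.filter (fun z : Box n s ρ => T' z = d)).card : ℝ)) := by
    unfold penB
    refine Finset.sum_congr rfl (fun d _ => ?_)
    rw [card_level_eq a b hab T' hCL' d]
  rw [e]
  exact h

/-- Lower bound: every `w` with the line averages of a centred `f` and zero level sums has
`|w|^2 ≥ |S f|^2 + penB f`. -/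
theorem penB_le_of_lift (a b : Fin n) (hab : a ≠ b)
    (f : Box n s ρ → ℝ) (hf : ∑ z, f z = 0) (w : Box n s ρ → ℝ)
    (hw : ∀ t : ℕ, ∑ z ∈ univ.filter (fun z => levelB a b z = t), w z = 0)
    (hwf : avgRel (LineRel a b) w = avgRel (LineRel a b) f) :
    ∑ z, avgRel (LineRel a b) f z ^ 2 + penB a b f ≤ ∑ z, w z ^ 2 :=
  penB_le_of_lift' a b hab (levelB a b) (fun z G => box_class_level a b hab z G) f hf w hw hwf

/-- The optimal lift: for a centred `f` there is `w` with the line averages of `f`, zero level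
sums and `|w|^2 = |S f|^2 + penB f`. -/
theorem exists_lift_box (a b : Fin n) (hab : a ≠ b) (f : Box n s ρ → ℝ) (hf : ∑ z, f z = 0) :
    ∃ w : Box n s ρ → ℝ,
      (∀ t : ℕ, ∑ z ∈ univ.filter (fun z => levelB a b z = t), w z = 0) ∧
      avgRel (LineRel a b) w = avgRel (LineRel a b) f ∧
      ∑ z, w z ^ 2 = ∑ z, avgRel (LineRel a b) f z ^ 2 + penB a b f := by
  have hR := lineRel_equiv (s := s) (ρ := ρ) a b
  have hD := depthB_const (s := s) (ρ := ρ) a b hab
  exact Sur2Aux.exists_lift (LineRel a b) (levelB a b) (depthB a b) hR hD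
    (fun z G => box_class_level a b hab z G) (min (s a) (s b)) (fun z => depthB_le a b z) f hf

/-- The optimal lift with an arbitrary level function. -/
theorem exists_lift_box' (a b : Fin n) (hab : a ≠ b) (T' : Box n s ρ → ℕ)
    (hCL' : ∀ (z : Box n s ρ) (G : ℕ → ℝ),
      ∑ z' ∈ univ.filter (fun z' => LineRel a b z z'), G (T' z')
        = ∑ t ∈ range (depthB a b z + 1), G t)
    (f : Box n s ρ → ℝ) (hf : ∑ z, f z = 0) :
    ∃ w : Box n s ρ → ℝ,
      (∀ t : ℕ, ∑ z ∈ univ.filter (fun z => T' z = t), w z = 0) ∧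
      avgRel (LineRel a b) w = avgRel (LineRel a b) f ∧
      ∑ z, w z ^ 2 = ∑ z, avgRel (LineRel a b) f z ^ 2 + penB a b f := by
  have hR := lineRel_equiv (s := s) (ρ := ρ) a b
  have hD := depthB_const (s := s) (ρ := ρ) a b hab
  obtain ⟨w, h1, h2, h3⟩ := Sur2Aux.exists_lift (LineRel a b) T' (depthB a b) hR hD hCL'
    (min (s a) (s b)) (fun z => depthB_le a b z) f hf
  refine ⟨w, h1, h2, ?_⟩
  rw [h3]
  congr 1
  unfold penB
  refine Finset.sum_congr rfl (fun d _ => ?_)
  rw [card_level_eq a b hab T' hCL' d]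

/-- Slack of one pair in lift form: for a centred `f` and every admissible lift `w`,
`QB a b f - penB a b f ≥ |f|^2 - |w|^2`. -/
theorem slack_pair_ge (a b : Fin n) (hab : a ≠ b) (T' : Box n s ρ → ℕ)
    (hCL' : ∀ (z : Box n s ρ) (G : ℕ → ℝ),
      ∑ z' ∈ univ.filter (fun z' => LineRel a b z z'), G (T' z')
        = ∑ t ∈ range (depthB a b z + 1), G t)
    (f : Box n s ρ → ℝ) (hf : ∑ z, f z = 0) (w : Box n s ρ → ℝ)
    (hw : ∀ t : ℕ, ∑ z ∈ univ.filter (fun z => T' z = t), w z = 0)
    (hwf : avgRel (LineRel a b) w = avgRel (LineRel a b) f) :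
    ∑ z, f z ^ 2 - ∑ z, w z ^ 2 ≤ QB a b f - penB a b f := by
  have h := penB_le_of_lift' a b hab T' hCL' f hf w hw hwf
  rw [QB_eq]
  linarith

end Vale.Agent.H14.CT
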