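import Vale.Agent.H91.CT.Lift2
import Vale.Agent.H86.CT.BlkParam

/-!
P328 row L6, structure half: on a class of `2 x n` tables and for columns `a ≠ b`, the level
`tau X = min (X 0 a) (X 1 b)` is a bijection from every `BlockRel 0 1 a b`-class onto
`{0, …, dep2 a b X}`; consequences for sums over classes and over level sets.
-/

namespace Vale.Agent.H91.CT

open Finset Vale.Agent.H90 Vale.Agent.H88.CT Vale.Agent.H86.CT

variable {n : ℕ} {r : Fin 2 → ℕ} {c : Fin n → ℕ}

/-- Depth of the block in columns `a, b` of a two-row table (same body as `depth2`). -/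
def dep2 (a b : Fin n) (X : Omega r c) : ℕ :=
  min (min (X.1 0 a + X.1 0 b) (X.1 1 a + X.1 1 b)) (min (c a) (c b))

theorem s2_h01 : (0 : Fin 2) ≠ 1 := by decide

theorem s2_c (X : Omega r c) (l : Fin n) : c l = X.1 0 l + X.1 1 l := by
  have h := X.2.2 l
  rw [Fin.sum_univ_two] at h
  exact h.symm

/-- (1) the level is at most the depth. -/
theorem s2_tau_le (a b : Fin n) (_hab : a ≠ b) (X : Omega r c) :
    min (X.1 0 a) (X.1 1 b) ≤ dep2 a b X := by
  have hca := s2_c X a
  have hcb := s2_c X b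
  unfold dep2
  omega

/-- (2) the depth is constant on block classes. -/
theorem s2_dep_const (a b : Fin n) (hab : a ≠ b) (X Y : Omega r c)
    (h : BlockRel 0 1 a b X Y) : dep2 a b X = dep2 a b Y := by
  obtain ⟨e1, e2, _, _⟩ := blockRel_entries 0 1 s2_h01 a b hab X Y h
  unfold dep2
  omega

/-- two tables of the same block class and the same level are equal. -/
theorem s2_eq_of_tau (a b : Fin n) (hab : a ≠ b) (X Y : Omega r c)
    (h : BlockRel 0 1 a b X Y) (ht : min (X.1 0 a) (X.1 1 b) = min (Y.1 0 a) (Y.1 1 b)) :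
    X = Y := by
  obtain ⟨e1, e2, e3, e4⟩ := blockRel_entries 0 1 s2_h01 a b hab X Y h
  refine eq_of_blockRel_of_entry 0 1 s2_h01 a b hab X Y h ?_
  omega

/-- the table of the block class of `X` at level `s` (for `s ≤ dep2 a b X`). -/
def s2_lev (a b : Fin n) (hab : a ≠ b) (X : Omega r c) (s : ℕ) : Omega r c :=
  blkTab 0 1 s2_h01 a b hab X (blkLo 0 1 a b X.1 + s)

theorem s2_lev_rel (a b : Fin n) (hab : a ≠ b) (X : Omega r c) (s : ℕ) :
    BlockRel 0 1 a b X (s2_lev a b hab X s) :=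
  blockRel_blkTab 0 1 s2_h01 a b hab X _

theorem s2_lev_tau (a b : Fin n) (hab : a ≠ b) (X : Omega r c) (s : ℕ)
    (hs : s ≤ dep2 a b X) :
    min ((s2_lev a b hab X s).1 0 a) ((s2_lev a b hab X s).1 1 b) = s := by
  have hca := s2_c X a
  have hcb := s2_c X b
  unfold dep2 at hs
  have hok : BlkOk 0 1 a b X.1 (blkLo 0 1 a b X.1 + s) := by
    rw [blkOk_iff]
    unfold blkLo blkHi bSig bCol
    omega
  unfold s2_lev
  rw [blkTab_val 0 1 s2_h01 a b hab X _ hok, blkFun_iv, blkFun_jw 0 1 s2_h01 a b hab]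
  unfold blkLo bSig bCol
  omega

theorem s2_lev_dep (a b : Fin n) (hab : a ≠ b) (X : Omega r c) (s : ℕ) :
    dep2 a b (s2_lev a b hab X s) = dep2 a b X :=
  (s2_dep_const a b hab X _ (s2_lev_rel a b hab X s)).symm

/-- the table at the level of `Y` in the class of `Y` is `Y`. -/
theorem s2_lev_self (a b : Fin n) (hab : a ≠ b) (X Y : Omega r c)
    (h : BlockRel 0 1 a b X Y) :
    s2_lev a b hab X (min (Y.1 0 a) (Y.1 1 b)) = Y := by
  have hY : min (Y.1 0 a) (Y.1 1 b) ≤ dep2 a b X := by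
    rw [s2_dep_const a b hab X Y h]
    exact s2_tau_le a b hab Y
  have hrel : BlockRel 0 1 a b (s2_lev a b hab X (min (Y.1 0 a) (Y.1 1 b))) Y :=
    (blockRel_equiv 0 1 a b).trans ((blockRel_equiv 0 1 a b).symm (s2_lev_rel a b hab X _)) h
  exact s2_eq_of_tau a b hab _ Y hrel (s2_lev_tau a b hab X _ hY)

/-- (3) level shift: the tables of level `t` and depth at least `j` correspond to the tables of
level `j` (same block class), for `t ≤ j`. -/
theorem s2_level_shift (a b : Fin n) (hab : a ≠ b) (g : Omega r c → ℝ)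
    (hg : ∀ X Y : Omega r c, BlockRel 0 1 a b X Y → g X = g Y) (t j : ℕ) (htj : t ≤ j) :
    ∑ X ∈ univ.filter (fun X : Omega r c => min (X.1 0 a) (X.1 1 b) = t ∧ j ≤ dep2 a b X), g X
      = ∑ X ∈ univ.filter (fun X : Omega r c => min (X.1 0 a) (X.1 1 b) = j), g X := by
  refine Finset.sum_nbij' (fun X => s2_lev a b hab X j) (fun Y => s2_lev a b hab Y t)
    ?_ ?_ ?_ ?_ ?_
  · intro X hX
    obtain ⟨-, hX2⟩ := (mem_filter.1 hX).2
    exact mem_filter.2 ⟨mem_univ _, s2_lev_tau a b hab X j hX2⟩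
  · intro Y hY
    have hY1 : min (Y.1 0 a) (Y.1 1 b) = j := (mem_filter.1 hY).2
    have hjd : j ≤ dep2 a b Y := hY1 ▸ s2_tau_le a b hab Y
    refine mem_filter.2 ⟨mem_univ _, s2_lev_tau a b hab Y t (le_trans htj hjd), ?_⟩
    rw [s2_lev_dep]
    exact hjd
  · intro X hX
    obtain ⟨hX1, hX2⟩ := (mem_filter.1 hX).2
    have h1 := s2_lev_self a b hab (s2_lev a b hab X j) X
      ((blockRel_equiv 0 1 a b).symm (s2_lev_rel a b hab X j))
    rw [hX1] at h1
    exact h1
  · intro Y hY
    have hY1 : min (Y.1 0 a) (Y.1 1 b) = j := (mem_filter.1 hY).2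
    have h1 := s2_lev_self a b hab (s2_lev a b hab Y t) Y
      ((blockRel_equiv 0 1 a b).symm (s2_lev_rel a b hab Y t))
    rw [hY1] at h1
    exact h1
  · intro X _
    exact hg X _ (s2_lev_rel a b hab X j)

/-- (4) sum over a block class of a function of the level. -/
theorem s2_class_sum (a b : Fin n) (hab : a ≠ b) (X : Omega r c) (φ : ℕ → ℝ) :
    ∑ Y ∈ univ.filter (fun Y : Omega r c => BlockRel 0 1 a b X Y),
        φ (min (Y.1 0 a) (Y.1 1 b))
      = ∑ t ∈ Finset.range (dep2 a b X + 1), φ t := by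
  refine Finset.sum_nbij' (fun Y => min (Y.1 0 a) (Y.1 1 b)) (fun s => s2_lev a b hab X s)
    ?_ ?_ ?_ ?_ ?_
  · intro Y hY
    have hrel : BlockRel 0 1 a b X Y := (mem_filter.1 hY).2
    rw [Finset.mem_range, s2_dep_const a b hab X Y hrel]
    exact Nat.lt_succ_of_le (s2_tau_le a b hab Y)
  · intro s _
    exact mem_filter.2 ⟨mem_univ _, s2_lev_rel a b hab X s⟩
  · intro Y hY
    exact s2_lev_self a b hab X Y (mem_filter.1 hY).2
  · intro s hs
    exact s2_lev_tau a b hab X s (Nat.lt_succ_iff.1 (Finset.mem_range.1 hs))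
  · intro Y _
    rfl

/-- the number of tables of a block class. -/
theorem s2_class_card (a b : Fin n) (hab : a ≠ b) (X : Omega r c) :
    (univ.filter (fun Y : Omega r c => BlockRel 0 1 a b X Y)).card = dep2 a b X + 1 := by
  have h := s2_class_sum a b hab X (fun _ => (1 : ℝ))
  simp only [Finset.sum_const, nsmul_eq_mul, mul_one, Finset.card_range] at h
  exact_mod_cast h

end Vale.Agent.H91.CT
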