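import Vale.Agent.H91.CT.BoxDefs
import Vale.Agent.H91.CT.Sur2Struct
import Vale.Agent.H91.CT.Transfer

/-!
P328: bridge from box-slice classes to classes of two-rowed tables: the surplus inequality on
box-slice classes gives `SurHypG θ 0`.
-/

namespace Vale.Agent.H91.BoxTwin

open Finset Vale.Agent.H90 Vale.Agent.H88.CT Vale.Agent.H91.CT

namespace BoxBridge

variable {n : ℕ} {r : Fin 2 → ℕ} {c : Fin n → ℕ}

/-- The first row of a two-rowed table. -/
def row0 (X : Omega r c) : Box n c (r 0) :=
  ⟨X.1 0, fun k => entry_le_col X 0 k, X.2.1 0⟩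

theorem row0_val (X : Omega r c) (k : Fin n) : (row0 X).1 k = X.1 0 k := rfl

theorem row1_eq (X : Omega r c) (k : Fin n) : X.1 1 k = c k - X.1 0 k := by
  have := s2_c X k
  omega

theorem row0_inj : Function.Injective (row0 (r := r) (c := c)) := by
  intro X Y h
  have h0 : X.1 0 = Y.1 0 := congrArg Subtype.val h
  apply Subtype.ext
  funext i l
  have hX := s2_c X l
  have hY := s2_c Y l
  have h0l := congrFun h0 l
  rcases Fin.exists_fin_two.1 ⟨i, rfl⟩ with hi | hi
  · rw [hi]
    exact h0l
  · rw [hi]
    omega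

theorem row0_surj (X0 : Omega r c) : Function.Surjective (row0 (r := r) (c := c)) := by
  intro z
  have hsum : ∑ k, c k = r 0 + r 1 := by
    have e : ∑ k, c k = ∑ k, ∑ i, X0.1 i k :=
      Finset.sum_congr rfl (fun k _ => (X0.2.2 k).symm)
    rw [e, Finset.sum_comm, Fin.sum_univ_two, X0.2.1 0, X0.2.1 1]
  have hz1 : ∑ k, (c k - z.1 k) + ∑ k, z.1 k = ∑ k, c k := by
    rw [← Finset.sum_add_distrib]
    refine Finset.sum_congr rfl (fun k _ => ?_)
    have := z.2.1 k
    omega
  have hz2 := z.2.2
  refine ⟨⟨fun i k => if i = 0 then z.1 k else c k - z.1 k, ?_, ?_⟩, ?_⟩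
  · intro i
    rcases Fin.exists_fin_two.1 ⟨i, rfl⟩ with hi | hi
    · rw [hi]
      simpa using hz2
    · rw [hi]
      have h10 : (1 : Fin 2) ≠ 0 := by decide
      simp only [h10, if_false]
      omega
  · intro k
    rw [Fin.sum_univ_two]
    have h10 : (1 : Fin 2) ≠ 0 := by decide
    simp only [h10, if_false, if_true]
    have := z.2.1 k
    omega
  · apply Subtype.ext
    funext k
    simp [row0]

theorem blockRel_iff (a b : Fin n) (X Y : Omega r c) :
    BlockRel 0 1 a b X Y ↔ LineRel a b (row0 X) (row0 Y) := by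
  constructor
  · intro h k hka hkb
    show X.1 0 k = Y.1 0 k
    apply h 0 k
    rintro ⟨_, h2⟩
    rcases h2 with h2 | h2
    · exact hka h2
    · exact hkb h2
  · intro h i l hil
    have hl : l ≠ a ∧ l ≠ b := by
      constructor
      · intro hla
        apply hil
        refine ⟨?_, Or.inl hla⟩
        exact Fin.exists_fin_two.1 ⟨i, rfl⟩
      · intro hlb
        apply hil
        refine ⟨?_, Or.inr hlb⟩
        exact Fin.exists_fin_two.1 ⟨i, rfl⟩
    have h0 : X.1 0 l = Y.1 0 l := h l hl.1 hl.2
    have hX := s2_c X l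
    have hY := s2_c Y l
    rcases Fin.exists_fin_two.1 ⟨i, rfl⟩ with hi | hi
    · rw [hi]
      exact h0
    · rw [hi]
      omega

theorem depth_eq (a b : Fin n) (X : Omega r c) : depthB a b (row0 X) = depth2 a b X := by
  unfold depthB depth2
  rw [row0_val, row0_val, row1_eq X a, row1_eq X b]

theorem level_eq (a b : Fin n) (X : Omega r c) :
    levelB a b (row0 X) = min (X.1 0 a) (X.1 1 b) := by
  unfold levelB
  rw [row0_val, row0_val, row1_eq X b]

/-- Transport of a filtered sum along the bijection `row0`. -/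
theorem sum_filter_row0 (X0 : Omega r c) (p : Box n c (r 0) → Prop) [DecidablePred p]
    (q : Omega r c → Prop) [DecidablePred q] (hpq : ∀ X, p (row0 X) ↔ q X)
    (g : Box n c (r 0) → ℝ) :
    ∑ z ∈ univ.filter p, g z = ∑ X ∈ univ.filter q, g (row0 X) := by
  symm
  refine Finset.sum_bij (fun X _ => row0 X) ?_ ?_ ?_ ?_
  · intro X hX
    simp only [mem_filter, mem_univ, true_and] at hX ⊢
    exact (hpq X).2 hX
  · intro X _ Y _ h
    exact row0_inj h
  · intro z hz
    obtain ⟨X, rfl⟩ := row0_surj X0 z
    simp only [mem_filter, mem_univ, true_and] at hz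
    refine ⟨X, ?_, rfl⟩
    simp only [mem_filter, mem_univ, true_and]
    exact (hpq X).1 hz
  · intro X _
    rfl

theorem card_filter_row0 (X0 : Omega r c) (p : Box n c (r 0) → Prop) [DecidablePred p]
    (q : Omega r c → Prop) [DecidablePred q] (hpq : ∀ X, p (row0 X) ↔ q X) :
    (univ.filter p).card = (univ.filter q).card := by
  symm
  refine Finset.card_bij (fun X _ => row0 X) ?_ ?_ ?_
  · intro X hX
    simp only [mem_filter, mem_univ, true_and] at hX ⊢
    exact (hpq X).2 hX
  · intro X _ Y _ h
    exact row0_inj h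
  · intro z hz
    obtain ⟨X, rfl⟩ := row0_surj X0 z
    simp only [mem_filter, mem_univ, true_and] at hz
    refine ⟨X, ?_, rfl⟩
    simp only [mem_filter, mem_univ, true_and]
    exact (hpq X).1 hz

theorem sum_row0 (X0 : Omega r c) (g : Box n c (r 0) → ℝ) :
    ∑ z, g z = ∑ X : Omega r c, g (row0 X) := by
  have h := sum_filter_row0 X0 (fun _ => True) (fun _ => True) (fun _ => Iff.rfl) g
  simpa using h

/-- The function on the box-slice class corresponding to `f`. -/
noncomputable def push (f : Omega r c → ℝ) (z : Box n c (r 0)) : ℝ :=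
  ∑ X ∈ univ.filter (fun X : Omega r c => row0 X = z), f X

theorem push_row0 (f : Omega r c → ℝ) (X : Omega r c) : push f (row0 X) = f X := by
  unfold push
  have e : univ.filter (fun Y : Omega r c => row0 Y = row0 X) = {X} := by
    ext Y
    simp only [mem_filter, mem_univ, true_and, mem_singleton]
    exact ⟨fun h => row0_inj h, fun h => by rw [h]⟩
  rw [e, Finset.sum_singleton]

theorem pen_eq (X0 : Omega r c) (a b : Fin n) (f : Omega r c → ℝ) :
    penB a b (push f)
      = ∑ d ∈ Finset.Icc 1 (min (c a) (c b)),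
          (∑ X ∈ univ.filter (fun X : Omega r c => d ≤ depth2 a b X), f X) ^ 2 /
            ((d : ℝ) * (d + 1) *
              ((univ.filter (fun X : Omega r c => min (X.1 0 a) (X.1 1 b) = d)).card : ℝ)) := by
  unfold penB
  refine Finset.sum_congr rfl (fun d _ => ?_)
  rw [sum_filter_row0 X0 (fun z => d ≤ depthB a b z) (fun X => d ≤ depth2 a b X)
      (fun X => by rw [depth_eq]) (push f),
    card_filter_row0 X0 (fun z => levelB a b z = d) (fun X => min (X.1 0 a) (X.1 1 b) = d)
      (fun X => by rw [level_eq])]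
  congr 2
  exact Finset.sum_congr rfl (fun X _ => push_row0 f X)

theorem q_eq (X0 : Omega r c) (a b : Fin n) (f : Omega r c → ℝ) :
    QB a b (push f) = ∑ X, (f X - avgRel (BlockRel 0 1 a b) f X) ^ 2 := by
  unfold QB
  rw [sum_row0 X0]
  refine Finset.sum_congr rfl (fun X _ => ?_)
  rw [push_row0]
  have h := TransferAux.avgRel_embed (row0 (r := r) (c := c)) row0_inj
    (LineRel a b) (BlockRel 0 1 a b) (fun Z Z' => blockRel_iff a b Z Z')
    (fun Z Y _ => row0_surj X0 Y) (push f) X
  rw [h]
  congr 2
  exact congrArg (fun g => avgRel (BlockRel 0 1 a b) g X) (funext (fun W => push_row0 f W))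

end BoxBridge

/-- Bridge: the surplus inequality on box-slice classes gives the surplus inequality on classes
of two-rowed tables (with `κ = 0`). -/
theorem surHypG_of_boxSur (θ : ℕ → ℝ) (h : BoxSur θ) : SurHypG θ (fun _ => 0) := by
  intro n r c f hf
  rw [zero_mul, sub_zero]
  by_cases hne : Nonempty (Omega r c)
  · obtain ⟨X0⟩ := hne
    have hpush : ∑ z, BoxBridge.push f z = 0 := by
      rw [BoxBridge.sum_row0 X0]
      rw [← hf]
      exact Finset.sum_congr rfl (fun X _ => BoxBridge.push_row0 f X)
    have h1 := h n c (r 0) (BoxBridge.push f) hpush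
    have e1 : ∀ a b : Fin n, (if a ≠ b then penB a b (BoxBridge.push f) else 0)
        = (if a ≠ b then
            ∑ d ∈ Finset.Icc 1 (min (c a) (c b)),
              (∑ X ∈ univ.filter (fun X : Omega r c => d ≤ depth2 a b X), f X) ^ 2 /
                ((d : ℝ) * (d + 1) *
                  ((univ.filter (fun X : Omega r c => min (X.1 0 a) (X.1 1 b) = d)).card : ℝ))
          else 0) := by
      intro a b
      split_ifs
      · exact BoxBridge.pen_eq X0 a b f
      · rfl
    have e2 : ∀ a b : Fin n, (if a ≠ b then QB a b (BoxBridge.push f) else 0)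
        = (if a ≠ b then ∑ X, (f X - avgRel (BlockRel 0 1 a b) f X) ^ 2 else 0) := by
      intro a b
      split_ifs
      · exact BoxBridge.q_eq X0 a b f
      · rfl
    simp only [e1, e2] at h1
    exact h1
  · have hemp : IsEmpty (Omega r c) := not_nonempty_iff.1 hne
    have hu : (univ : Finset (Omega r c)) = ∅ := Finset.univ_eq_empty
    have eL : ∑ a : Fin n, ∑ b : Fin n, (if a ≠ b then
        ∑ d ∈ Finset.Icc 1 (min (c a) (c b)),
          (∑ X ∈ univ.filter (fun X : Omega r c => d ≤ depth2 a b X), f X) ^ 2 /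
            ((d : ℝ) * (d + 1) *
              ((univ.filter (fun X : Omega r c => min (X.1 0 a) (X.1 1 b) = d)).card : ℝ))
        else 0) = 0 := by
      refine Finset.sum_eq_zero (fun a _ => Finset.sum_eq_zero (fun b _ => ?_))
      split_ifs
      · refine Finset.sum_eq_zero (fun d _ => ?_)
        rw [hu, Finset.filter_empty, Finset.sum_empty]
        simp
      · rfl
    have eR : ∑ a : Fin n, ∑ b : Fin n, (if a ≠ b then
        ∑ X, (f X - avgRel (BlockRel 0 1 a b) f X) ^ 2 else 0) = 0 := by
      refine Finset.sum_eq_zero (fun a _ => Finset.sum_eq_zero (fun b _ => ?_))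
      split_ifs
      · rw [hu, Finset.sum_empty]
      · rfl
    rw [eL, eR, mul_zero]

end Vale.Agent.H91.BoxTwin
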