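import Vale.Agent.H91.CT.BoxChain
import Vale.Agent.H91.CT.BoxBridge
import Vale.Agent.H91.CT.GenChain
import Vale.Agent.H14.CT.BoxDefs

/-!
P328, cut route: the cut inequality for two columns and the one-dimensional penalty bound give
the surplus inequality on box-slice classes, hence on classes of two-rowed tables, hence the
Poincare inequality and the mixing time of the `2 x 2` heat-bath chain.

Definitions of box-slice classes: `Vale.Agent.H14.CT` (`Box`, `LineRel`, `QB`, `penB`).
-/

namespace Vale.Agent.H91.GS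

open Finset Vale.Agent.H90 Vale.Agent.H88.CT Vale.Agent.H14.CT

variable {n : ℕ} {s : Fin n → ℕ} {ρ : ℕ}

/-- Pair-sum relation of the columns `a, b`: the two vectors have the same sum of the entries
at `a` and `b`. -/
def PairSumRel (a b : Fin n) (z w : Box n s ρ) : Prop := z.1 a + z.1 b = w.1 a + w.1 b

instance (a b : Fin n) : DecidableRel (PairSumRel (s := s) (ρ := ρ) a b) := fun z w => by
  unfold PairSumRel; infer_instance

/-- The cut inequality for two columns with constant `c n`: for every class, every pair of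
distinct columns `a, b` and every `f` of zero sum, `c n` times the squared norm of the
conditional mean of `f` given `z a + z b` is at most the sum over the other columns `x` of the
slacks `QB - penB` of the pairs `a, x` and `b, x`. -/
def CutHyp (c : ℕ → ℝ) : Prop :=
  ∀ (n : ℕ) (s : Fin n → ℕ) (ρ : ℕ) (a b : Fin n), a ≠ b →
    ∀ f : Box n s ρ → ℝ, ∑ z, f z = 0 →
      c n * ∑ z, avgRel (PairSumRel a b) f z ^ 2
        ≤ ∑ x : Fin n, (if x ≠ a ∧ x ≠ b then
            (QB a x f - penB a x f) + (QB b x f - penB b x f) else 0)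

/-- The one-dimensional penalty bound with constant `C n`: for every class, every pair of
distinct columns `a, b` and every `f` of zero sum, the penalty of the pair is at most `C n`
times the squared norm of the conditional mean of `f` given `z a + z b`. -/
def PenHyp (C : ℕ → ℝ) : Prop :=
  ∀ (n : ℕ) (s : Fin n → ℕ) (ρ : ℕ) (a b : Fin n), a ≠ b →
    ∀ f : Box n s ρ → ℝ, ∑ z, f z = 0 →
      penB a b f ≤ C n * ∑ z, avgRel (PairSumRel a b) f z ^ 2

/-- The number of indices different from two given different indices. -/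
theorem count_ne2 (a x : Fin n) (h : a ≠ x) :
    ∑ b : Fin n, (if a ≠ b ∧ x ≠ b then (1 : ℝ) else 0) = (n : ℝ) - 2 := by
  have e : ∀ b : Fin n, (if a ≠ b ∧ x ≠ b then (1 : ℝ) else 0)
      = 1 - (if a = b then (1 : ℝ) else 0) - (if x = b then (1 : ℝ) else 0) := by
    intro b
    by_cases h1 : a = b
    · have h2 : x ≠ b := fun hx => h (h1.trans hx.symm)
      rw [if_neg (fun hh => hh.1 h1), if_pos h1, if_neg h2]
      ring
    · by_cases h2 : x = b
      · rw [if_neg (fun hh => hh.2 h2), if_neg h1, if_pos h2]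
        ring
      · rw [if_pos ⟨h1, h2⟩, if_neg h1, if_neg h2]
        ring
  rw [Finset.sum_congr rfl (fun b _ => e b), Finset.sum_sub_distrib, Finset.sum_sub_distrib,
    Finset.sum_ite_eq, Finset.sum_ite_eq, if_pos (Finset.mem_univ a), if_pos (Finset.mem_univ x),
    Finset.sum_const, Finset.card_univ, Fintype.card_fin, nsmul_eq_mul, mul_one]
  ring

/-- Summation of a star term over the ordered pairs. -/
theorem sum_star_left (G : Fin n → Fin n → ℝ) :
    ∑ a : Fin n, ∑ b : Fin n, (if a ≠ b then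
        ∑ x : Fin n, (if x ≠ a ∧ x ≠ b then G a x else 0) else 0)
      = ((n : ℝ) - 2) * ∑ a : Fin n, ∑ x : Fin n, (if a ≠ x then G a x else 0) := by
  rw [Finset.mul_sum]
  refine Finset.sum_congr rfl (fun a _ => ?_)
  have e1 : ∀ b : Fin n, (if a ≠ b then
        ∑ x : Fin n, (if x ≠ a ∧ x ≠ b then G a x else 0) else 0)
      = ∑ x : Fin n, (if a ≠ x then G a x * (if a ≠ b ∧ x ≠ b then (1 : ℝ) else 0) else 0) := by
    intro b
    by_cases hab : a ≠ b
    · rw [if_pos hab]
      refine Finset.sum_congr rfl (fun x _ => ?_)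
      by_cases hxa : a ≠ x
      · rw [if_pos hxa]
        by_cases hxb : x ≠ b
        · rw [if_pos ⟨Ne.symm hxa, hxb⟩, if_pos ⟨hab, hxb⟩, mul_one]
        · rw [if_neg (fun hh => hxb hh.2), if_neg (fun hh => hxb hh.2), mul_zero]
      · rw [if_neg hxa, if_neg (fun hh => hxa (Ne.symm hh.1))]
    · rw [if_neg hab]
      symm
      refine Finset.sum_eq_zero (fun x _ => ?_)
      by_cases hxa : a ≠ x
      · rw [if_pos hxa, if_neg (fun hh => hab hh.1), mul_zero]
      · rw [if_neg hxa]
  rw [Finset.sum_congr rfl (fun b _ => e1 b), Finset.sum_comm, Finset.mul_sum]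
  refine Finset.sum_congr rfl (fun x _ => ?_)
  by_cases hxa : a ≠ x
  · simp only [if_pos hxa]
    rw [← Finset.mul_sum, count_ne2 a x hxa]
    ring
  · simp only [if_neg hxa]
    rw [Finset.sum_const_zero, mul_zero]

/-- The cut inequality and the penalty bound give the surplus inequality on box-slice classes
with `θ n = 2 (n - 2) C n / (c n + 2 (n - 2) C n)`. -/
theorem sur_of_cut (c C : ℕ → ℝ) (hc : ∀ k, 0 < c k) (hC : ∀ k, 0 ≤ C k)
    (h1 : CutHyp c) (h2 : PenHyp C)
    (n : ℕ) (s : Fin n → ℕ) (ρ : ℕ) (f : Box n s ρ → ℝ) (hf : ∑ z, f z = 0) :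
    ∑ a : Fin n, ∑ b : Fin n, (if a ≠ b then penB a b f else 0)
      ≤ 2 * ((n : ℝ) - 2) * C n / (c n + 2 * ((n : ℝ) - 2) * C n)
        * ∑ a : Fin n, ∑ b : Fin n, (if a ≠ b then QB a b f else 0) := by
  set K : ℝ := ∑ a : Fin n, ∑ b : Fin n, (if a ≠ b then QB a b f else 0) with hK
  set P : ℝ := ∑ a : Fin n, ∑ b : Fin n, (if a ≠ b then penB a b f else 0) with hP
  set V : ℝ := ∑ a : Fin n, ∑ b : Fin n,
    (if a ≠ b then ∑ z, avgRel (PairSumRel a b) f z ^ 2 else 0) with hV
  by_cases hn : n ≤ 1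
  · have hK0 : K = 0 := by
      rw [hK]
      refine Finset.sum_eq_zero (fun a _ => Finset.sum_eq_zero (fun b _ => ?_))
      have : a = b := by
        apply Fin.ext
        have := a.2
        have := b.2
        omega
      rw [if_neg (not_not.mpr this)]
    have hP0 : P = 0 := by
      rw [hP]
      refine Finset.sum_eq_zero (fun a _ => Finset.sum_eq_zero (fun b _ => ?_))
      have : a = b := by
        apply Fin.ext
        have := a.2
        have := b.2
        omega
      rw [if_neg (not_not.mpr this)]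
    rw [hK0, hP0, mul_zero]
  have hn2 : (2 : ℝ) ≤ n := by
    have : 2 ≤ n := by omega
    exact_mod_cast this
  -- penalty bound summed
  have hPV : P ≤ C n * V := by
    rw [hP, hV, Finset.mul_sum]
    refine Finset.sum_le_sum (fun a _ => ?_)
    rw [Finset.mul_sum]
    refine Finset.sum_le_sum (fun b _ => ?_)
    by_cases hab : a ≠ b
    · rw [if_pos hab, if_pos hab]
      exact h2 n s ρ a b hab f hf
    · rw [if_neg hab, if_neg hab, mul_zero]
  -- cut inequality summed
  have hcut : c n * V ≤ 2 * ((n : ℝ) - 2) * (K - P) := by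
    have hsum : c n * V ≤ ∑ a : Fin n, ∑ b : Fin n, (if a ≠ b then
        ∑ x : Fin n, (if x ≠ a ∧ x ≠ b then
          (QB a x f - penB a x f) + (QB b x f - penB b x f) else 0) else 0) := by
      rw [hV, Finset.mul_sum]
      refine Finset.sum_le_sum (fun a _ => ?_)
      rw [Finset.mul_sum]
      refine Finset.sum_le_sum (fun b _ => ?_)
      by_cases hab : a ≠ b
      · rw [if_pos hab, if_pos hab]
        exact h1 n s ρ a b hab f hf
      · rw [if_neg hab, if_neg hab, mul_zero]
    have hsplit : ∑ a : Fin n, ∑ b : Fin n, (if a ≠ b then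
        ∑ x : Fin n, (if x ≠ a ∧ x ≠ b then
          (QB a x f - penB a x f) + (QB b x f - penB b x f) else 0) else 0)
        = ∑ a : Fin n, ∑ b : Fin n, (if a ≠ b then
            ∑ x : Fin n, (if x ≠ a ∧ x ≠ b then (QB a x f - penB a x f) else 0) else 0)
          + ∑ a : Fin n, ∑ b : Fin n, (if a ≠ b then
            ∑ x : Fin n, (if x ≠ a ∧ x ≠ b then (QB b x f - penB b x f) else 0) else 0) := by
      rw [← Finset.sum_add_distrib]
      refine Finset.sum_congr rfl (fun a _ => ?_)
      rw [← Finset.sum_add_distrib]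
      refine Finset.sum_congr rfl (fun b _ => ?_)
      by_cases hab : a ≠ b
      · rw [if_pos hab, if_pos hab, if_pos hab, ← Finset.sum_add_distrib]
        refine Finset.sum_congr rfl (fun x _ => ?_)
        by_cases hx : x ≠ a ∧ x ≠ b
        · rw [if_pos hx, if_pos hx, if_pos hx]
        · rw [if_neg hx, if_neg hx, if_neg hx, add_zero]
      · rw [if_neg hab, if_neg hab, if_neg hab, add_zero]
    have hA := sum_star_left (n := n) (fun a x => QB a x f - penB a x f)
    have hB : ∑ a : Fin n, ∑ b : Fin n, (if a ≠ b then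
        ∑ x : Fin n, (if x ≠ a ∧ x ≠ b then (QB b x f - penB b x f) else 0) else 0)
        = ((n : ℝ) - 2) * ∑ a : Fin n, ∑ x : Fin n,
            (if a ≠ x then (QB a x f - penB a x f) else 0) := by
      rw [← sum_star_left (n := n) (fun a x => QB a x f - penB a x f), Finset.sum_comm]
      refine Finset.sum_congr rfl (fun b _ => Finset.sum_congr rfl (fun a _ => ?_))
      by_cases hab : a ≠ b
      · rw [if_pos hab, if_pos (Ne.symm hab)]
        refine Finset.sum_congr rfl (fun x _ => ?_)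
        by_cases hx : x ≠ a ∧ x ≠ b
        · rw [if_pos hx, if_pos ⟨hx.2, hx.1⟩]
        · rw [if_neg hx, if_neg (fun hh => hx ⟨hh.2, hh.1⟩)]
      · rw [if_neg hab, if_neg (fun hh => hab (Ne.symm hh))]
    have hKP : ∑ a : Fin n, ∑ x : Fin n, (if a ≠ x then (QB a x f - penB a x f) else 0)
        = K - P := by
      rw [hK, hP, ← Finset.sum_sub_distrib]
      refine Finset.sum_congr rfl (fun a _ => ?_)
      rw [← Finset.sum_sub_distrib]
      refine Finset.sum_congr rfl (fun x _ => ?_)
      by_cases hax : a ≠ x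
      · rw [if_pos hax, if_pos hax, if_pos hax]
      · rw [if_neg hax, if_neg hax, if_neg hax, sub_zero]
    rw [hsplit, hA, hB, hKP] at hsum
    linarith
  have hcn := hc n
  have hCn := hC n
  have hden : 0 < c n + 2 * ((n : ℝ) - 2) * C n := by
    have : 0 ≤ 2 * ((n : ℝ) - 2) * C n := by
      have h0 : (0 : ℝ) ≤ (n : ℝ) - 2 := by linarith
      positivity
    linarith
  have hmain : P * (c n + 2 * ((n : ℝ) - 2) * C n) ≤ 2 * ((n : ℝ) - 2) * C n * K := by
    have h3 : c n * P ≤ C n * (c n * V) := by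
      have := mul_le_mul_of_nonneg_left hPV hcn.le
      linarith
    have h4 : C n * (c n * V) ≤ C n * (2 * ((n : ℝ) - 2) * (K - P)) :=
      mul_le_mul_of_nonneg_left hcut hCn
    nlinarith
  show P ≤ 2 * ((n : ℝ) - 2) * C n / (c n + 2 * ((n : ℝ) - 2) * C n) * K
  rw [div_mul_eq_mul_div, le_div_iff₀ hden]
  exact hmain

/-- The same as a surplus inequality on classes of two-rowed tables. -/
theorem surHypG_of_cut (c C : ℕ → ℝ) (hc : ∀ k, 0 < c k) (hC : ∀ k, 0 ≤ C k)
    (h1 : CutHyp c) (h2 : PenHyp C) :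
    Vale.Agent.H91.CT.SurHypG
      (fun n => 2 * ((n : ℝ) - 2) * C n / (c n + 2 * ((n : ℝ) - 2) * C n)) (fun _ => 0) :=
  Vale.Agent.H91.BoxTwin.surHypG_of_boxSur _
    (fun n s ρ f hf => sur_of_cut c C hc hC h1 h2 n s ρ f hf)

/-- The constant of the surplus inequality of the cut route, cut off at `1` for fewer than two
columns. -/
noncomputable def thetaCut (c C : ℕ → ℝ) (n : ℕ) : ℝ :=
  if 2 ≤ n then 2 * ((n : ℝ) - 2) * C n / (c n + 2 * ((n : ℝ) - 2) * C n) else 1

theorem thetaCut_le_one (c C : ℕ → ℝ) (hc : ∀ k, 0 < c k) (hC : ∀ k, 0 ≤ C k) (k : ℕ) :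
    thetaCut c C k ≤ 1 := by
  unfold thetaCut
  by_cases hk : 2 ≤ k
  · rw [if_pos hk]
    have hk2 : (2 : ℝ) ≤ k := by exact_mod_cast hk
    have h0 : 0 ≤ 2 * ((k : ℝ) - 2) * C k := by
      have h1 : (0 : ℝ) ≤ (k : ℝ) - 2 := by linarith
      have := hC k
      positivity
    have hden : 0 < c k + 2 * ((k : ℝ) - 2) * C k := by
      have := hc k
      linarith
    rw [div_le_one hden]
    have := hc k
    linarith
  · rw [if_neg hk]

theorem one_sub_thetaCut (c C : ℕ → ℝ) (hc : ∀ k, 0 < c k) (hC : ∀ k, 0 ≤ C k) (k : ℕ)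
    (hk : 2 ≤ k) :
    1 - thetaCut c C k = c k / (c k + 2 * ((k : ℝ) - 2) * C k) := by
  unfold thetaCut
  rw [if_pos hk]
  have hk2 : (2 : ℝ) ≤ k := by exact_mod_cast hk
  have h0 : 0 ≤ 2 * ((k : ℝ) - 2) * C k := by
    have h1 : (0 : ℝ) ≤ (k : ℝ) - 2 := by linarith
    have := hC k
    positivity
  have hden : 0 < c k + 2 * ((k : ℝ) - 2) * C k := by
    have := hc k
    linarith
  field_simp
  ring

/-- The surplus inequality on classes of two-rowed tables with the constant `thetaCut`. -/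
theorem surHypG_thetaCut (c C : ℕ → ℝ) (hc : ∀ k, 0 < c k) (hC : ∀ k, 0 ≤ C k)
    (h1 : CutHyp c) (h2 : PenHyp C) :
    Vale.Agent.H91.CT.SurHypG (thetaCut c C) (fun _ => 0) := by
  intro n r cc f hf
  have h := surHypG_of_cut c C hc hC h1 h2 n r cc f hf
  by_cases hn : 2 ≤ n
  · have e : thetaCut c C n = 2 * ((n : ℝ) - 2) * C n / (c n + 2 * ((n : ℝ) - 2) * C n) := by
      unfold thetaCut
      rw [if_pos hn]
    rw [e]
    exact h
  · have hab : ∀ a b : Fin n, a = b := by
      intro a b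
      apply Fin.ext
      have := a.2
      have := b.2
      omega
    have eL : ∀ (G : Fin n → Fin n → ℝ),
        ∑ a : Fin n, ∑ b : Fin n, (if a ≠ b then G a b else 0) = 0 := by
      intro G
      refine Finset.sum_eq_zero (fun a _ => Finset.sum_eq_zero (fun b _ => ?_))
      rw [if_neg (not_not.mpr (hab a b))]
    rw [eL, eL]
    simp

/-- Final assembly of the cut route: the cut inequality for two columns with constants
`c n > 0` and the penalty bound with constants `C n ≥ 0` give, for all `m, n ≥ 2` and all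
margins, the Poincare inequality with constant `δ / (m (m - 1) n (n - 1))` for every
`0 < δ ≤ 2` with `δ ≤ 2 c k / (c k + 2 (k - 2) C k)`, `k = m, n`, and the corresponding mixing
time bound of the lazy `2 x 2` heat-bath chain. -/
theorem main_cut (c C : ℕ → ℝ) (hc : ∀ k, 0 < c k) (hC : ∀ k, 0 ≤ C k)
    (h1 : CutHyp c) (h2 : PenHyp C) {m n : ℕ} (hm : 2 ≤ m) (hn : 2 ≤ n)
    (r : Fin m → ℕ) (cc : Fin n → ℕ) (δ : ℝ) (hδ0 : 0 < δ) (hδ2 : δ ≤ 2)
    (hδm : δ ≤ 2 * c m / (c m + 2 * ((m : ℝ) - 2) * C m))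
    (hδn : δ ≤ 2 * c n / (c n + 2 * ((n : ℝ) - 2) * C n)) :
    (∀ f : Omega r cc → ℝ, ∑ X, f X = 0 →
      δ / ((m : ℝ) * (m - 1) * ((n : ℝ) * (n - 1))) * ∑ X, f X ^ 2
        ≤ (1 / 2 : ℝ) * ∑ X, ∑ Y, blockChain r cc X Y * (f X - f Y) ^ 2) ∧
    ∀ (η : ℝ), 0 < η → ∀ t : ℕ,
      2 * ((m : ℝ) * (m - 1) * ((n : ℝ) * (n - 1))) / δ
        * ((m : ℝ) * ∑ j, Real.log ((cc j : ℝ) + 1) + 2 * Real.log (1 / η)) ≤ t →
      ∀ X : Omega r cc,
        (1 / 2 : ℝ) * ∑ Y, |(((1 / 2 : ℝ) • (1 + blockChain r cc)) ^ t) X Y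
          - 1 / (Fintype.card (Omega r cc) : ℝ)| ≤ η := by
  have hS := surHypG_thetaCut c C hc hC h1 h2
  refine Vale.Agent.H91.CT.main_surG (thetaCut c C) (fun _ => 0) hS
    (thetaCut_le_one c C hc hC) hm hn r cc δ hδ0 hδ2 ?_ ?_
  · show δ ≤ 0 + 2 * (1 - thetaCut c C m)
    rw [one_sub_thetaCut c C hc hC m hm]
    have e : (0 : ℝ) + 2 * (c m / (c m + 2 * ((m : ℝ) - 2) * C m))
        = 2 * c m / (c m + 2 * ((m : ℝ) - 2) * C m) := by ring
    rw [e]
    exact hδm
  · show δ ≤ 0 + 2 * (1 - thetaCut c C n)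
    rw [one_sub_thetaCut c C hc hC n hn]
    have e : (0 : ℝ) + 2 * (c n / (c n + 2 * ((n : ℝ) - 2) * C n))
        = 2 * c n / (c n + 2 * ((n : ℝ) - 2) * C n) := by ring
    rw [e]
    exact hδn

end Vale.Agent.H91.GS
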