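import Vale.Agent.H91.CT.BoxDefs
import Vale.Agent.H91.CT.GenChain

/-!
P328: from the pair inequality on box-slice classes to the surplus inequality with
`θ n = 1 - 2 / (n (n - 1))`, and the final assembly.
-/

namespace Vale.Agent.H91.BoxTwin

open Finset Vale.Agent.H90 Vale.Agent.H88.CT Vale.Agent.H91.CT

/-- The pair inequality: on every box-slice class and for every pair of distinct columns, the
surplus form dominates the Dirichlet form of the pair (counted twice: ordered pairs). -/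
def PairHyp : Prop :=
  ∀ (n : ℕ) (s : Fin n → ℕ) (ρ : ℕ) (a0 b0 : Fin n), a0 ≠ b0 → ∀ f : Box n s ρ → ℝ,
    QB a0 b0 f + QB b0 a0 f ≤ XB f

/-- The pair inequality gives the surplus inequality with `θ n = 1 - 2 / (n (n - 1))`. -/
theorem boxSur_of_pair (h : PairHyp) :
    BoxSur (fun n => 1 - 2 / ((n : ℝ) * ((n : ℝ) - 1))) := by
  intro n s ρ f hf
  set K : ℝ := ∑ a : Fin n, ∑ b : Fin n, (if a ≠ b then QB a b f else 0) with hK
  set P : ℝ := ∑ a : Fin n, ∑ b : Fin n, (if a ≠ b then penB a b f else 0) with hP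
  have hcent : (fun z => f z - (∑ y, f y) / (Fintype.card (Box n s ρ) : ℝ)) = f := by
    funext z
    rw [hf, zero_div, sub_zero]
  have hX : XB f = K - P := by
    unfold XB
    rw [hcent, hK, hP, ← Finset.sum_sub_distrib]
    refine Finset.sum_congr rfl (fun a _ => ?_)
    rw [← Finset.sum_sub_distrib]
    refine Finset.sum_congr rfl (fun b _ => ?_)
    split_ifs
    · rfl
    · rw [sub_zero]
  have hsum : ∑ a : Fin n, ∑ b : Fin n, (if a ≠ b then QB a b f + QB b a f else 0)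
      ≤ ∑ a : Fin n, ∑ b : Fin n, (if a ≠ b then XB f else 0) := by
    refine Finset.sum_le_sum (fun a _ => Finset.sum_le_sum (fun b _ => ?_))
    split_ifs with hab
    · exact h n s ρ a b hab f
    · exact le_refl _
  have hL : ∑ a : Fin n, ∑ b : Fin n, (if a ≠ b then QB a b f + QB b a f else 0) = 2 * K := by
    have e1 : ∑ a : Fin n, ∑ b : Fin n, (if a ≠ b then QB a b f + QB b a f else 0)
        = K + ∑ a : Fin n, ∑ b : Fin n, (if a ≠ b then QB b a f else 0) := by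
      rw [hK, ← Finset.sum_add_distrib]
      refine Finset.sum_congr rfl (fun a _ => ?_)
      rw [← Finset.sum_add_distrib]
      refine Finset.sum_congr rfl (fun b _ => ?_)
      split_ifs
      · rfl
      · rw [add_zero]
    have e2 : ∑ a : Fin n, ∑ b : Fin n, (if a ≠ b then QB b a f else 0) = K := by
      rw [hK, Finset.sum_comm]
      refine Finset.sum_congr rfl (fun a _ => Finset.sum_congr rfl (fun b _ => ?_))
      by_cases hab : a = b
      · rw [if_neg (not_not.mpr hab), if_neg (not_not.mpr hab.symm)]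
      · rw [if_pos hab, if_pos (Ne.symm hab)]
    rw [e1, e2]
    ring
  have hR : ∑ a : Fin n, ∑ b : Fin n, (if a ≠ b then XB f else 0)
      = (n : ℝ) * ((n : ℝ) - 1) * XB f := by
    rw [← count_ne n, Finset.sum_mul]
    refine Finset.sum_congr rfl (fun a _ => ?_)
    rw [Finset.sum_mul]
    refine Finset.sum_congr rfl (fun b _ => ?_)
    split_ifs
    · rw [one_mul]
    · rw [zero_mul]
  rw [hL, hR, hX] at hsum
  show P ≤ (1 - 2 / ((n : ℝ) * ((n : ℝ) - 1))) * K
  by_cases hn : n ≤ 1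
  · -- no ordered pairs
    have hK0 : K = 0 := by
      rw [hK]
      refine Finset.sum_eq_zero (fun a _ => Finset.sum_eq_zero (fun b _ => ?_))
      have : a = b := by
        apply Fin.ext
        have := a.2
        have := b.2
        omega
      rw [if_neg (not_not.mpr this)]
    have hP0 : P = 0 := by
      rw [hP]
      refine Finset.sum_eq_zero (fun a _ => Finset.sum_eq_zero (fun b _ => ?_))
      have : a = b := by
        apply Fin.ext
        have := a.2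
        have := b.2
        omega
      rw [if_neg (not_not.mpr this)]
    rw [hK0, hP0, mul_zero]
  · have hn2 : (2 : ℝ) ≤ n := by
      have : 2 ≤ n := by omega
      exact_mod_cast this
    have hD : (0 : ℝ) < (n : ℝ) * ((n : ℝ) - 1) := by nlinarith
    have e : (1 - 2 / ((n : ℝ) * ((n : ℝ) - 1))) * K
        = K - 2 * K / ((n : ℝ) * ((n : ℝ) - 1)) := by
      field_simp
    rw [e]
    have h2 : 2 * K / ((n : ℝ) * ((n : ℝ) - 1)) ≤ K - P := by
      rw [div_le_iff₀ hD]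
      linarith
    linarith

/-- Final assembly: the pair inequality on box-slice classes and the bridge to tables give the
Poincare inequality with constant `4 / (m (m - 1) n (n - 1)) ^ 2` and the mixing time bound. -/
theorem main_of_pair {m n : ℕ} (hpair : PairHyp)
    (hbridge : ∀ θ : ℕ → ℝ, BoxSur θ → SurHypG θ (fun _ => 0))
    (hm : 2 ≤ m) (hn : 2 ≤ n) (r : Fin m → ℕ) (c : Fin n → ℕ) :
    (∀ f : Omega r c → ℝ, ∑ X, f X = 0 →
      4 / ((m : ℝ) * (m - 1) * ((n : ℝ) * (n - 1))) ^ 2 * ∑ X, f X ^ 2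
        ≤ (1 / 2 : ℝ) * ∑ X, ∑ Y, blockChain r c X Y * (f X - f Y) ^ 2) ∧
    ∀ (η : ℝ), 0 < η → ∀ t : ℕ,
      ((m : ℝ) * (m - 1) * ((n : ℝ) * (n - 1))) ^ 2 / 2
        * ((m : ℝ) * ∑ j, Real.log ((c j : ℝ) + 1) + 2 * Real.log (1 / η)) ≤ t →
      ∀ X : Omega r c,
        (1 / 2 : ℝ) * ∑ Y, |(((1 / 2 : ℝ) • (1 + blockChain r c)) ^ t) X Y
          - 1 / (Fintype.card (Omega r c) : ℝ)| ≤ η := by
  have hS := hbridge _ (boxSur_of_pair hpair)
  have hm' : (2 : ℝ) ≤ m := by exact_mod_cast hm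
  have hn' : (2 : ℝ) ≤ n := by exact_mod_cast hn
  have a1 : 2 ≤ (m : ℝ) * (m - 1) := by nlinarith
  have a2 : 2 ≤ (n : ℝ) * (n - 1) := by nlinarith
  have hD : (4 : ℝ) ≤ (m : ℝ) * (m - 1) * ((n : ℝ) * (n - 1)) := by nlinarith
  have hDpos : (0 : ℝ) < (m : ℝ) * (m - 1) * ((n : ℝ) * (n - 1)) := by linarith
  have hθ : ∀ k : ℕ, (1 : ℝ) - 2 / ((k : ℝ) * ((k : ℝ) - 1)) ≤ 1 := by
    intro k
    have hk : (0 : ℝ) ≤ (k : ℝ) * ((k : ℝ) - 1) := by
      rcases Nat.eq_zero_or_pos k with h0 | h0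
      · subst h0
        simp
      · have : (1 : ℝ) ≤ k := by exact_mod_cast h0
        nlinarith
    have : (0 : ℝ) ≤ 2 / ((k : ℝ) * ((k : ℝ) - 1)) := div_nonneg (by norm_num) hk
    linarith
  set δ : ℝ := 4 / ((m : ℝ) * (m - 1) * ((n : ℝ) * (n - 1))) with hδ
  have hδ0 : 0 < δ := div_pos (by norm_num) hDpos
  have hδ2 : δ ≤ 2 := by
    rw [hδ, div_le_iff₀ hDpos]
    linarith
  have hδm : δ ≤ (fun _ : ℕ => (0 : ℝ)) m
      + 2 * (1 - (fun k : ℕ => (1 : ℝ) - 2 / ((k : ℝ) * ((k : ℝ) - 1))) m) := by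
    have e : (fun _ : ℕ => (0 : ℝ)) m
        + 2 * (1 - (fun k : ℕ => (1 : ℝ) - 2 / ((k : ℝ) * ((k : ℝ) - 1))) m)
        = 4 / ((m : ℝ) * ((m : ℝ) - 1)) := by
      show (0 : ℝ) + 2 * (1 - (1 - 2 / ((m : ℝ) * ((m : ℝ) - 1)))) = _
      ring
    rw [e, hδ]
    have hmpos : (0 : ℝ) < (m : ℝ) * ((m : ℝ) - 1) := by linarith
    rw [div_le_div_iff₀ hDpos hmpos]
    nlinarith
  have hδn : δ ≤ (fun _ : ℕ => (0 : ℝ)) n
      + 2 * (1 - (fun k : ℕ => (1 : ℝ) - 2 / ((k : ℝ) * ((k : ℝ) - 1))) n) := by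
    have e : (fun _ : ℕ => (0 : ℝ)) n
        + 2 * (1 - (fun k : ℕ => (1 : ℝ) - 2 / ((k : ℝ) * ((k : ℝ) - 1))) n)
        = 4 / ((n : ℝ) * ((n : ℝ) - 1)) := by
      show (0 : ℝ) + 2 * (1 - (1 - 2 / ((n : ℝ) * ((n : ℝ) - 1)))) = _
      ring
    rw [e, hδ]
    have hnpos : (0 : ℝ) < (n : ℝ) * ((n : ℝ) - 1) := by linarith
    rw [div_le_div_iff₀ hDpos hnpos]
    nlinarith
  have hmain := main_surG _ _ hS hθ hm hn r c δ hδ0 hδ2 hδm hδn
  have e1 : δ / ((m : ℝ) * (m - 1) * ((n : ℝ) * (n - 1)))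
      = 4 / ((m : ℝ) * (m - 1) * ((n : ℝ) * (n - 1))) ^ 2 := by
    rw [hδ]
    field_simp
  have e2 : 2 * ((m : ℝ) * (m - 1) * ((n : ℝ) * (n - 1))) / δ
      = ((m : ℝ) * (m - 1) * ((n : ℝ) * (n - 1))) ^ 2 / 2 := by
    rw [hδ]
    field_simp
    ring
  rw [e1, e2] at hmain
  exact hmain

end Vale.Agent.H91.BoxTwin
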