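import Vale.Agent.H91.CT.GenDefs

/-!
P328: box-slice classes (first rows of two-rowed contingency tables) and the slicing hypothesis
(definitions only).

`Box n s ρ` is the set of vectors `z ≤ s` with sum `ρ`; it is the set of first rows of the
`2 x n` tables with column sums `s` and first row sum `ρ`.  The slice `z a = j` of `Box n s ρ`
is `Box n (Function.update s a 0) (ρ - j)` (column `a` is dead in the slice), embedded by
`sliceEmb`.
-/

namespace Vale.Agent.H91.BoxTwin

open Finset Vale.Agent.H90 Vale.Agent.H88.CT Vale.Agent.H91.CT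

/-- Box-slice class: the vectors `z ≤ s` with sum `ρ`. -/
def Box (n : ℕ) (s : Fin n → ℕ) (ρ : ℕ) : Type :=
  {z : Fin n → ℕ // (∀ k, z k ≤ s k) ∧ ∑ k, z k = ρ}

variable {n : ℕ} {s : Fin n → ℕ} {ρ : ℕ}

instance instFiniteBox (n : ℕ) (s : Fin n → ℕ) (ρ : ℕ) : Finite (Box n s ρ) := by
  refine Finite.of_injective
    (fun z : Box n s ρ => fun (k : Fin n) =>
      (⟨z.1 k, Nat.lt_succ_of_le (z.2.1 k)⟩ : Fin (s k + 1))) ?_
  intro z z' h
  apply Subtype.ext
  funext k
  have := congrFun h k
  exact Fin.mk.inj_iff.1 this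

noncomputable instance instFintypeBox (n : ℕ) (s : Fin n → ℕ) (ρ : ℕ) : Fintype (Box n s ρ) :=
  Fintype.ofFinite _

instance instDecEqBox (n : ℕ) (s : Fin n → ℕ) (ρ : ℕ) : DecidableEq (Box n s ρ) := by
  unfold Box; infer_instance

/-- Line relation of the column pair `a, b`: the two vectors agree outside `a, b`. -/
def LineRel (a b : Fin n) (z z' : Box n s ρ) : Prop := ∀ k, k ≠ a → k ≠ b → z.1 k = z'.1 k

instance (a b : Fin n) : DecidableRel (LineRel (s := s) (ρ := ρ) a b) := fun z z' => by
  unfold LineRel; infer_instance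

/-- Depth of the line of the pair `a, b` through `z`: its number of points minus one. -/
def depthB (a b : Fin n) (z : Box n s ρ) : ℕ :=
  min (min (z.1 a + z.1 b) ((s a - z.1 a) + (s b - z.1 b))) (min (s a) (s b))

/-- Level of `z` for the ordered pair `a, b`. -/
def levelB (a b : Fin n) (z : Box n s ρ) : ℕ := min (z.1 a) (s b - z.1 b)

/-- Dirichlet form of the pair `a, b` (sum over the class, not normalised). -/
noncomputable def QB (a b : Fin n) (f : Box n s ρ → ℝ) : ℝ :=
  ∑ z, (f z - avgRel (LineRel a b) f z) ^ 2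

/-- Closed-form penalty of the ordered pair `a, b`. -/
noncomputable def penB (a b : Fin n) (f : Box n s ρ → ℝ) : ℝ :=
  ∑ d ∈ Finset.Icc 1 (min (s a) (s b)),
    (∑ z ∈ univ.filter (fun z : Box n s ρ => d ≤ depthB a b z), f z) ^ 2 /
      ((d : ℝ) * (d + 1) *
        ((univ.filter (fun z : Box n s ρ => levelB a b z = d)).card : ℝ))

/-- The surplus form `K - P` of a class: sum over the ordered pairs of distinct columns of the
Dirichlet form minus the penalty of the centred function. -/
noncomputable def XB (f : Box n s ρ → ℝ) : ℝ :=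
  ∑ a : Fin n, ∑ b : Fin n, if a ≠ b then
    QB a b f - penB a b (fun z => f z - (∑ y, f y) / (Fintype.card (Box n s ρ) : ℝ)) else 0

/-- Embedding of the slice `z a = j`. -/
def sliceEmb (a : Fin n) (j : ℕ) (hj : j ≤ s a) (hρ : j ≤ ρ)
    (y : Box n (Function.update s a 0) (ρ - j)) : Box n s ρ :=
  ⟨Function.update y.1 a j, by
    have hya : y.1 a = 0 := by
      have := y.2.1 a
      simpa using this
    refine ⟨fun k => ?_, ?_⟩
    · by_cases hk : k = a
      · subst hk
        simpa using hj
      · have := y.2.1 k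
        simpa [Function.update_of_ne hk] using this
    · have h1 := Finset.sum_update_of_mem (Finset.mem_univ a) y.1 j
      have h2 : ∑ k, y.1 k = y.1 a + ∑ k ∈ univ \ {a}, y.1 k := by
        rw [← Finset.sum_erase_add _ _ (Finset.mem_univ a), add_comm]
        congr 1
        apply Finset.sum_congr _ (fun _ _ => rfl)
        ext k
        simp
      have h3 := y.2.2
      rw [h1]
      omega⟩

/-- The slicing hypothesis (SL1): for every class, every column `a` and every function `f`,
the surplus form of `f` is at least the sum over the slices `z a = j` of the surplus forms of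
the restrictions of `f` (each slice with its own lines, counts and centring). -/
def SliceHyp : Prop :=
  ∀ (n : ℕ) (s : Fin n → ℕ) (ρ : ℕ) (a : Fin n) (f : Box n s ρ → ℝ),
    ∑ j : Fin (min (s a) ρ + 1),
      XB (fun y => f (sliceEmb a j.1
        (le_trans (Nat.lt_succ_iff.1 j.2) (min_le_left _ _))
        (le_trans (Nat.lt_succ_iff.1 j.2) (min_le_right _ _)) y)) ≤ XB f

/-- The surplus inequality on box-slice classes with constant `θ n`. -/
def BoxSur (θ : ℕ → ℝ) : Prop :=
  ∀ (n : ℕ) (s : Fin n → ℕ) (ρ : ℕ) (f : Box n s ρ → ℝ), ∑ z, f z = 0 →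
    ∑ a : Fin n, ∑ b : Fin n, (if a ≠ b then penB a b f else 0)
      ≤ θ n * ∑ a : Fin n, ∑ b : Fin n, (if a ≠ b then QB a b f else 0)

end Vale.Agent.H91.BoxTwin
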