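import Vale.Agent.H91.CT.BoxBridge
import Vale.Agent.H91.CT.Sur2

/-!
P328: line structure of box-slice classes: `LineRel a b` is an equivalence relation, the depth
is constant on lines, and on a line of depth `D` the level runs through `0, …, D` exactly once.
These are the hypotheses `hR`, `hD`, `hCL` of the abstract framework `Sur2Aux`.
-/

namespace Vale.Agent.H91.BoxTwin

open Finset Vale.Agent.H90 Vale.Agent.H88.CT Vale.Agent.H91.CT

variable {n : ℕ} {s : Fin n → ℕ} {ρ : ℕ}

theorem lineRel_equiv (a b : Fin n) : Equivalence (LineRel (s := s) (ρ := ρ) a b) :=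
  ⟨fun _ _ _ _ => rfl, fun h k hka hkb => (h k hka hkb).symm,
    fun h1 h2 k hka hkb => (h1 k hka hkb).trans (h2 k hka hkb)⟩

theorem lineRel_symm_iff (a b : Fin n) (z z' : Box n s ρ) :
    LineRel a b z z' ↔ LineRel b a z z' :=
  ⟨fun h k hkb hka => h k hka hkb, fun h k hka hkb => h k hkb hka⟩

/-- Splitting off two coordinates of a sum. -/
theorem sum_split_two (a b : Fin n) (hab : a ≠ b) (z : Fin n → ℕ) :
    ∑ k, z k = z a + z b + ∑ k ∈ (univ.erase a).erase b, z k := by
  rw [← Finset.add_sum_erase univ z (mem_univ a),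
    ← Finset.add_sum_erase (univ.erase a) z (mem_erase.2 ⟨hab.symm, mem_univ b⟩), add_assoc]

theorem lineRel_sum (a b : Fin n) (hab : a ≠ b) (z z' : Box n s ρ) (h : LineRel a b z z') :
    z.1 a + z.1 b = z'.1 a + z'.1 b := by
  have h1 := sum_split_two a b hab z.1
  have h2 := sum_split_two a b hab z'.1
  have h3 : ∑ k ∈ (univ.erase a).erase b, z.1 k = ∑ k ∈ (univ.erase a).erase b, z'.1 k := by
    refine Finset.sum_congr rfl (fun k hk => ?_)
    have hkb : k ≠ b := (mem_erase.1 hk).1
    have hka : k ≠ a := (mem_erase.1 (mem_erase.1 hk).2).1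
    exact h k hka hkb
  have e1 := z.2.2
  have e2 := z'.2.2
  omega

theorem depthB_const (a b : Fin n) (hab : a ≠ b) (z z' : Box n s ρ) (h : LineRel a b z z') :
    depthB a b z = depthB a b z' := by
  have h1 := lineRel_sum a b hab z z' h
  have ha := z.2.1 a
  have hb := z.2.1 b
  have ha' := z'.2.1 a
  have hb' := z'.2.1 b
  unfold depthB
  omega

/-- Two points of the same line with the same `a`-coordinate are equal. -/
theorem eq_of_lineRel (a b : Fin n) (hab : a ≠ b) (z z' : Box n s ρ) (h : LineRel a b z z')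
    (ha : z.1 a = z'.1 a) : z = z' := by
  have h1 := lineRel_sum a b hab z z' h
  apply Subtype.ext
  funext k
  by_cases hka : k = a
  · rw [hka]
    exact ha
  · by_cases hkb : k = b
    · rw [hkb]
      omega
    · exact h k hka hkb

/-- Every box-slice class is the set of first rows of a class of two-rowed tables. -/
theorem exists_table (z : Box n s ρ) :
    ∃ r : Fin 2 → ℕ, r 0 = ρ ∧ Nonempty (Omega r s) := by
  have hz1 : ∑ k, (s k - z.1 k) + ∑ k, z.1 k = ∑ k, s k := by
    rw [← Finset.sum_add_distrib]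
    refine Finset.sum_congr rfl (fun k _ => ?_)
    have := z.2.1 k
    omega
  have hz2 := z.2.2
  have h10 : (1 : Fin 2) ≠ 0 := by decide
  refine ⟨fun i => if i = 0 then ρ else ∑ k, s k - ρ, if_pos rfl,
    ⟨⟨fun i k => if i = 0 then z.1 k else s k - z.1 k, ?_, ?_⟩⟩⟩
  · intro i
    rcases Fin.exists_fin_two.1 ⟨i, rfl⟩ with hi | hi
    · rw [hi]
      simpa using hz2
    · rw [hi]
      simp only [h10, if_false]
      omega
  · intro k
    rw [Fin.sum_univ_two]
    simp only [h10, if_false, if_true]
    have := z.2.1 k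
    omega

/-- On a line of depth `D` the level runs through `0, …, D` exactly once. -/
theorem box_class_level (a b : Fin n) (hab : a ≠ b) (z : Box n s ρ) (G : ℕ → ℝ) :
    ∑ z' ∈ univ.filter (fun z' => LineRel a b z z'), G (levelB a b z')
      = ∑ t ∈ range (depthB a b z + 1), G t := by
  obtain ⟨r, rfl, ⟨X0⟩⟩ := exists_table z
  obtain ⟨X, rfl⟩ := BoxBridge.row0_surj X0 z
  rw [BoxBridge.sum_filter_row0 X0 (fun z' => LineRel a b (BoxBridge.row0 X) z')
      (fun Y => BlockRel 0 1 a b X Y) (fun Y => (BoxBridge.blockRel_iff a b X Y).symm)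
      (fun z' => G (levelB a b z')), BoxBridge.depth_eq, ← class_level a b hab X G]
  refine Finset.sum_congr rfl (fun Y _ => ?_)
  rw [BoxBridge.level_eq]

/-- The number of points of a line is its depth plus one. -/
theorem box_class_card (a b : Fin n) (hab : a ≠ b) (z : Box n s ρ) :
    ((univ.filter (fun z' => LineRel a b z z')).card : ℝ) = (depthB a b z : ℝ) + 1 :=
  Sur2Aux.class_card (LineRel a b) (levelB a b) (depthB a b)
    (fun z G => box_class_level a b hab z G) z

/-- The level is at most the depth. -/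
theorem levelB_le_depthB (a b : Fin n) (_hab : a ≠ b) (z : Box n s ρ) :
    levelB a b z ≤ depthB a b z := by
  have ha := z.2.1 a
  have hb := z.2.1 b
  unfold levelB depthB
  omega

end Vale.Agent.H91.BoxTwin
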