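import Vale.Agent.H91.CT.SurDefs
import Vale.Agent.H91.CT.TauDefs

/-!
P328: the surplus inequality on classes of two-rowed contingency tables with general constants
(definitions only).  `SurHypG (fun _ => 1) (fun _ => 2)` is `SurHyp2`.
-/

namespace Vale.Agent.H91.CT

open Finset Vale.Agent.H90 Vale.Agent.H88.CT

/-- The surplus inequality on classes of `2 x n` tables with constants `θ n` and `κ n`: for
every function `f` of zero sum, the sum over the ordered pairs of distinct columns `a, b` and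
the depths `d ≥ 1` of the squared sum of `f` over the tables of depth `≥ d`, divided by
`d (d + 1)` times the number of tables of level `d`, is at most `θ n` times the sum over the
ordered pairs of the block Dirichlet forms minus `κ n` times the sum of squares. -/
def SurHypG (θ κ : ℕ → ℝ) : Prop :=
  ∀ (n : ℕ) (r : Fin 2 → ℕ) (c : Fin n → ℕ) (f : Omega r c → ℝ), ∑ X, f X = 0 →
    ∑ a : Fin n, ∑ b : Fin n, (if a ≠ b then
        ∑ d ∈ Finset.Icc 1 (min (c a) (c b)),
          (∑ X ∈ univ.filter (fun X : Omega r c => d ≤ depth2 a b X), f X) ^ 2 /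
            ((d : ℝ) * (d + 1) *
              ((univ.filter (fun X : Omega r c => min (X.1 0 a) (X.1 1 b) = d)).card : ℝ))
      else 0)
      ≤ θ n * ∑ a : Fin n, ∑ b : Fin n, (if a ≠ b then
          ∑ X, (f X - avgRel (BlockRel 0 1 a b) f X) ^ 2 else 0)
        - κ n * ∑ X, f X ^ 2

/-- The lift hypothesis on two-row classes with surplus `ε n`. -/
def LiftHyp2G (ε : ℕ → ℝ) : Prop :=
  ∀ (n : ℕ) (r : Fin 2 → ℕ) (c : Fin n → ℕ) (f : Omega r c → ℝ), ∑ X, f X = 0 →
    ∃ w : Fin n → Fin n → Omega r c → ℝ,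
      (∀ a b : Fin n, a ≠ b →
        (∀ t : ℕ, ∑ X ∈ univ.filter (fun X : Omega r c => min (X.1 0 a) (X.1 1 b) = t),
          w a b X = 0) ∧
        avgRel (BlockRel 0 1 a b) (w a b) = avgRel (BlockRel 0 1 a b) f) ∧
      ∑ a : Fin n, ∑ b : Fin n, (if a ≠ b then ∑ X, w a b X ^ 2 else 0)
        ≤ ((n : ℝ) * (n - 1) - ε n) * ∑ X, f X ^ 2

/-- The lift hypothesis in fibre form with surplus `ε n`. -/
def LiftHypG (ε : ℕ → ℝ) : Prop :=
  ∀ (m n : ℕ) (r : Fin m → ℕ) (c : Fin n → ℕ) (i j : Fin m), i ≠ j →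
    ∀ f : Omega r c → ℝ, ∃ w : Fin n → Fin n → Omega r c → ℝ,
      (∀ a b : Fin n, a ≠ b →
        avgRel (TauRowRel i j a b) (w a b) = 0 ∧
        avgRel (BlockRel i j a b) (w a b)
          = avgRel (BlockRel i j a b) f - avgRel (RowRel i j) f) ∧
      ∑ a : Fin n, ∑ b : Fin n, (if a ≠ b then dot (w a b) (w a b) else 0)
        ≤ ((n : ℝ) * (n - 1) - ε n) * dot (Qrel (RowRel i j) f) (Qrel (RowRel i j) f)

/-- The transposed lift hypothesis (column pairs) with surplus `ε m`. -/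
def LiftHypColG (ε : ℕ → ℝ) : Prop :=
  ∀ (m n : ℕ) (r : Fin m → ℕ) (c : Fin n → ℕ) (a b : Fin n), a ≠ b →
    ∀ f : Omega r c → ℝ, ∃ w : Fin m → Fin m → Omega r c → ℝ,
      (∀ i j : Fin m, i ≠ j →
        avgRel (TauColRel i j a b) (w i j) = 0 ∧
        avgRel (BlockRel i j a b) (w i j)
          = avgRel (BlockRel i j a b) f - avgRel (ColRel a b) f) ∧
      ∑ i : Fin m, ∑ j : Fin m, (if i ≠ j then dot (w i j) (w i j) else 0)
        ≤ ((m : ℝ) * (m - 1) - ε m) * dot (Qrel (ColRel a b) f) (Qrel (ColRel a b) f)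

/-- The anticommutator hypothesis with constants `ε n` (row pairs) and `ε m` (column pairs). -/
def ACHypG (ε : ℕ → ℝ) : Prop :=
  ∀ (m n : ℕ) (r : Fin m → ℕ) (c : Fin n → ℕ) (f : Omega r c → ℝ),
    ε n * dot f (KR f) + ε m * dot f (KC f) ≤ 2 * dot (KR f) (KC f)

end Vale.Agent.H91.CT
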